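import Crest.Agent.N255.Tp.Cell
import Crest.Agent.N255.Tp.Sm
import Crest.Agent.N255.Tp.Stm
import Crest.Agent.N255.Tp.Basic

-- ▼ part N255/Tp/Loc
section

/-!
# Row 255, block D (helper88): local cohomology along a ball, abstract part
-/

set_option autoImplicit false
open Set Filter Topology

noncomputable section

namespace Crest.Agent.N255.Tp

open R251.Pr

variable {X Y : Type} [TopologicalSpace X] [TopologicalSpace Y] {n : ℕ}
variable {k : Type} [CommRing k] {A : Type} [AddCommGroup A] [Module k A]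

/-- coboundaries of cochains supported in `K` -/
def Exa (k : Type) [CommRing k] (A : Type) [AddCommGroup A] [Module k A] (K : Set X) :
    ∀ n, Submodule k (Co A n X)
  | 0 => ⊥
  | n + 1 => ((On Kᶜ).van k A n).map (cob k)

/-- the cohomology with supports in `K` is generated by the family `g` -/
def GenBy (k : Type) [CommRing k] {A : Type} [AddCommGroup A] [Module k A] (K : Set X)
    (g : ∀ n, Co A n X) : Prop :=
  ∀ n (φ : Co A n X), cob k φ = 0 → φ ∈ (On Kᶜ).van k A n → ∃ t : k, φ - t • g n ∈ Exa k A K n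

/-- no cohomology with supports in `K` -/
def AcS (k : Type) [CommRing k] (A : Type) [AddCommGroup A] [Module k A] (K : Set X) : Prop :=
  ∀ n (φ : Co A n X), cob k φ = 0 → φ ∈ (On Kᶜ).van k A n → φ ∈ Exa k A K n

/-- a set which can be pushed off itself is acyclic -/
theorem acS_of_push (H : C(X × unitInterval, X)) {K : Set X} (h0 : ∀ x, H (x, 0) = x)
    (h : ∀ x ∈ Kᶜ, ∀ t, H (x, t) ∈ Kᶜ) (h1 : ∀ x, H (x, 1) ∈ Kᶜ) : AcS k A K := by
  have e0 : end0 H = ContinuousMap.id X := ContinuousMap.ext h0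
  have e1 : ∀ {n} {φ : Co A n X}, φ ∈ (On Kᶜ).van k A n → pull k (end1 H) φ = 0 := fun hφ =>
    eq_zero_of_van_univ (pull_mem (fun x _ => h1 x) hφ)
  intro n φ hc hφ
  cases n with
  | zero =>
    have e := pc_cob_zero k H φ
    rw [hc, map_zero, e1 hφ, e0, zero_sub] at e
    exact neg_eq_zero.1 e.symm
  | succ n =>
    have e := cob_pc k H φ
    rw [hc, map_zero, add_zero, e1 hφ, e0, zero_sub] at e
    refine ⟨-pc k H φ, Submodule.neg_mem _ (pc_van k H h hφ), ?_⟩
    rw [map_neg, e, neg_neg]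
    rfl

/-- a cochain which vanishes on `U` and on `V` and is closed on `U ∪ V` -/
theorem van_union (hS : SmVanS) {U V : Set X} (hU : IsOpen U) (hV : IsOpen V) :
    ∀ {n} {a : Co A n X}, a ∈ (On U).van k A n → a ∈ (On V).van k A n →
      cob k a ∈ (On (U ∪ V)).van k A (n + 1) →
      ∃ b ∈ (On (U ∪ V)).van k A n, cob k b = cob k a
  | 0, a, h1, h2, _ => ⟨a, fun σ hσ => by
      have hs : ∀ t, σ t = σ (stdSimplex.vertex 0) := fun t => congrArg σ (Subsingleton.elim _ _)
      rcases hσ ⟨stdSimplex.vertex 0, rfl⟩ with h | h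
      · exact h1 σ (by rintro _ ⟨t, rfl⟩; rwa [hs])
      · exact h2 σ (by rintro _ ⟨t, rfl⟩; rwa [hs]), rfl⟩
  | n + 1, a, h1, h2, hc => by
    obtain ⟨ψ, hψ, -⟩ := hS k A X (U ∪ V) {U, V} (by rintro _ (rfl | rfl) <;> assumption)
      (by simp) n a hc (by
        rintro σ ⟨-, _, rfl | rfl, h⟩
        exacts [h1 σ h, h2 σ h])
    refine ⟨a - cob k ψ, ?_, by simp⟩
    rw [← neg_sub]
    exact Submodule.neg_mem _ hψ

/-- a cocycle which vanishes on `U` and on `V` -/
theorem van_prim (hS : SmVanS) {U V : Set X} (hU : IsOpen U) (hV : IsOpen V) {a : Co A (n + 1) X}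
    (hc : cob k a = 0) (h1 : a ∈ (On U).van k A (n + 1)) (h2 : a ∈ (On V).van k A (n + 1)) :
    ∃ ψ ∈ (On U).van k A n ⊓ (On V).van k A n, cob k ψ - a ∈ (On (U ∪ V)).van k A (n + 1) := by
  obtain ⟨ψ, hψ, hT⟩ := hS k A X (U ∪ V) {U, V} (by rintro _ (rfl | rfl) <;> assumption)
    (by simp) n a (by rw [Sb.mem_Z, hc]; exact Submodule.zero_mem _) (by
      rintro σ ⟨-, _, rfl | rfl, h⟩
      exacts [h1 σ h, h2 σ h])
  exact ⟨ψ, ⟨hT U (van_mono inter_subset_left h1), hT V (van_mono inter_subset_left h2)⟩, hψ⟩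

theorem van_split {K L : Set X} {b : Co A n X} (h : b ∈ (On (K ∪ L)ᶜ).van k A n) :
    ∃ p ∈ (On Kᶜ).van k A n, ∃ m ∈ (On Lᶜ).van k A n, b = p - m := by
  rw [compl_union, van_inter] at h
  obtain ⟨p, hp, m, hm, rfl⟩ := Submodule.mem_sup.1 h
  exact ⟨p, hp, -m, Submodule.neg_mem _ hm, by abel⟩

/-- the connecting map -/
theorem exists_conn (hS : SmVanS) {K L : Set X} (hK : IsClosed K) (hL : IsClosed L) (g : Co A n X)
    (hc : cob k g = 0) (hg : g ∈ (On (K ∪ L)ᶜ).van k A n) :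
    ∃ p ∈ (On Kᶜ).van k A n, p - g ∈ (On Lᶜ).van k A n ∧
      cob k p ∈ (On (K ∩ L)ᶜ).van k A (n + 1) ∧ (g = 0 → p = 0) := by
  by_cases h0 : g = 0
  · exact ⟨0, Submodule.zero_mem _, by simp [h0], by simp, fun _ => rfl⟩
  obtain ⟨p, hp, m, hm, rfl⟩ := van_split hg
  rw [map_sub, sub_eq_zero] at hc
  obtain ⟨ψ, ⟨h1, h2⟩, hψ⟩ := van_prim hS hK.isOpen_compl hL.isOpen_compl (cob_cob p)
    (Sb.cob_mem hp) (hc ▸ Sb.cob_mem hm)
  refine ⟨p - ψ, Submodule.sub_mem _ hp h1, ?_, ?_, fun h => absurd h h0⟩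
  · rw [show p - ψ - (p - m) = m - ψ by abel]
    exact Submodule.sub_mem _ hm h2
  · rw [compl_inter, map_sub, ← neg_sub]
    exact Submodule.neg_mem _ hψ

theorem Exa.split {K L : Set X} : ∀ {n} {e : Co A n X}, e ∈ Exa k A (K ∪ L) n →
    ∃ p ∈ (On Kᶜ).van k A n, p - e ∈ (On Lᶜ).van k A n ∧ cob k p = 0
  | 0, e, h => ⟨0, Submodule.zero_mem _, by
      rw [(Submodule.mem_bot k).1 h, sub_zero]; exact Submodule.zero_mem _, map_zero _⟩
  | n + 1, _, ⟨b, hb, rfl⟩ => by
    obtain ⟨p, hp, m, hm, rfl⟩ := van_split hb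
    refine ⟨cob k p, Sb.cob_mem hp, ?_, cob_cob p⟩
    rw [map_sub, sub_sub_cancel]
    exact Sb.cob_mem hm

/-- Mayer-Vietoris: the generators move up by one degree -/
theorem GenBy.inter (hS : SmVanS) {K L : Set X} (hK : IsClosed K) (hL : IsClosed L)
    (aK : AcS k A K) (aL : AcS k A L) {g p : ∀ n, Co A n X} (hg : GenBy k (K ∪ L) g)
    (hp : ∀ n, p n ∈ (On Kᶜ).van k A n) (hm : ∀ n, p n - g n ∈ (On Lᶜ).van k A n)
    (hc : ∀ n, cob k (p n) ∈ (On (K ∩ L)ᶜ).van k A (n + 1)) :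
    GenBy k (K ∩ L) fun n => Nat.casesOn n 0 fun n => cob k (p n) := by
  intro n φ hφ hv
  cases n with
  | zero =>
    refine ⟨0, ?_⟩
    rw [zero_smul, sub_zero]
    exact aK 0 φ hφ (van_supp inter_subset_left hv)
  | succ n =>
    obtain ⟨a, ha, rfl⟩ := aK _ φ hφ (van_supp inter_subset_left hv)
    obtain ⟨a', ha', e⟩ := aL _ _ hφ (van_supp inter_subset_right hv)
    obtain ⟨t, ht⟩ := hg n (a - a') (by rw [map_sub, e, sub_self]) (Submodule.sub_mem _
      (van_supp subset_union_left ha) (van_supp subset_union_right ha'))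
    obtain ⟨q, hq, hq', hq0⟩ := Exa.split ht
    have e1 : cob k (a - t • p n - q) = cob k a - t • cob k (p n) := by
      rw [map_sub, map_sub, map_smul, hq0, sub_zero]
    obtain ⟨b, hb, hb'⟩ := van_union hS hK.isOpen_compl hL.isOpen_compl (a := a - t • p n - q)
      (Submodule.sub_mem _ (Submodule.sub_mem _ ha (Submodule.smul_mem _ _ (hp n))) hq)
      (by
        rw [show a - t • p n - q = a' - t • (p n - g n) - (q - (a - a' - t • g n)) by
          rw [smul_sub]; abel]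
        exact Submodule.sub_mem _ (Submodule.sub_mem _ ha' (Submodule.smul_mem _ _ (hm n))) hq')
      (by
        rw [e1, ← compl_inter]
        exact Submodule.sub_mem _ hv (Submodule.smul_mem _ _ (hc n)))
    exact ⟨t, b, by rwa [compl_inter], hb'.trans e1⟩

/-- a contractible space -/
theorem genBy_univ (H : C(X × unitInterval, X)) (x₀ : X) (h1 : ∀ x, H (x, 1) = x)
    (h0 : ∀ x, H (x, 0) = x₀) :
    GenBy k (univ : Set X) fun n => Nat.casesOn n (fun _ => (1 : k)) fun _ => 0 := by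
  have e1 : end1 H = ContinuousMap.id X := ContinuousMap.ext h1
  have e0 : end0 H = ContinuousMap.const X x₀ := ContinuousMap.ext h0
  have hv : ∀ {n} (ψ : Co k n X), ψ ∈ (On (univ : Set X)ᶜ).van k k n := fun ψ σ hσ =>
    absurd (hσ ⟨stdSimplex.vertex 0, rfl⟩) (by simp)
  intro n φ hc _
  cases n with
  | zero =>
    have e := pc_cob_zero k H φ
    rw [hc, map_zero, e1, e0] at e
    refine ⟨φ (cst 0 x₀), (Submodule.mem_bot k).2 (e.symm ▸ ?_)⟩
    funext σ
    change φ σ - φ (cst 0 x₀) * 1 = φ σ - φ (cst 0 x₀)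
    rw [mul_one]
  | succ n =>
    have e := cob_pc k H φ
    rw [hc, map_zero, add_zero, e1, e0] at e
    refine ⟨0, pc k H φ + fun _ => φ (cst (n + 1) x₀), hv _, ?_⟩
    have h2 := congrFun hc (cst (n + 2) x₀)
    rw [cob_apply] at h2
    simp only [fc_cst] at h2
    rw [← Finset.sum_smul, alt_sum] at h2
    rw [map_add, e, cob_const, zero_smul, sub_zero]
    funext σ
    change φ σ - φ (cst (n + 1) x₀) + _ • φ (cst (n + 1) x₀) = φ σ
    by_cases hn : Even n
    · rw [if_neg (by simp [Nat.even_add, hn]), one_smul] at h2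
      rw [h2]
      simp
    · rw [if_neg hn, one_smul, sub_add_cancel]

/-! ### excision along an open embedding -/

open Classical in
/-- extension by zero -/
def exz (j : C(X, Y)) (ψ : Co A n X) : Co A n Y :=
  fun σ => if h : ∃ τ : Sx n X, j.comp τ = σ then ψ h.choose else 0

theorem pull_exz {j : C(X, Y)} (hj : Function.Injective j) (ψ : Co A n X) :
    pull k j (exz j ψ) = ψ := by
  funext τ
  have h : ∃ τ' : Sx n X, j.comp τ' = j.comp τ := ⟨τ, rfl⟩
  rw [pull_apply, exz, dif_pos h, comp_injective hj h.choose_spec]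

theorem exz_van {j : C(X, Y)} {K : Set X} {ψ : Co A n X} (h : ψ ∈ (On Kᶜ).van k A n) :
    exz j ψ ∈ (On (j '' K)ᶜ).van k A n := by
  intro σ hσ
  unfold exz
  split_ifs with h'
  · refine h _ ?_
    rintro _ ⟨t, rfl⟩ hK
    exact hσ ⟨t, ContinuousMap.congr_fun h'.choose_spec.symm t⟩ ⟨_, hK, rfl⟩
  · rfl

theorem van_range {j : C(X, Y)} (hj : IsEmbedding j) {φ : Co A n Y} (h : pull k j φ = 0) :
    φ ∈ (On (range j)).van k A n := by
  intro σ hσ
  rw [← image_univ] at hσ
  obtain ⟨τ, -, rfl⟩ := exists_lift hj hσ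
  exact congrFun h τ

theorem pull_van {j : C(X, Y)} (hj : Function.Injective j) {K : Set X} {φ : Co A n Y}
    (h : φ ∈ (On (j '' K)ᶜ).van k A n) : pull k j φ ∈ (On Kᶜ).van k A n :=
  pull_mem (U := Kᶜ) (V := (j '' K)ᶜ) (fun _ hx hx' => hx ((hj.mem_set_image).1 hx')) h

theorem range_union_compl (j : C(X, Y)) (K : Set X) : range j ∪ (j '' K)ᶜ = univ := by
  refine eq_univ_of_forall fun y => ?_
  by_cases h : y ∈ j '' K
  · exact Or.inl (image_subset_range _ _ h)
  · exact Or.inr h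

/-- a cocycle with support in `K` extends to a cocycle with support in `j '' K` -/
theorem exists_extend (hS : SmVanS) {j : C(X, Y)} (hj : IsOpenEmbedding j) {K : Set X}
    (hK : IsClosed (j '' K)) {g : Co A n X} (hc : cob k g = 0) (hg : g ∈ (On Kᶜ).van k A n) :
    ∃ g' ∈ (On (j '' K)ᶜ).van k A n, cob k g' = 0 ∧ pull k j g' = g := by
  obtain ⟨ψ, ⟨h1, h2⟩, hψ⟩ := van_prim hS hj.isOpen_range hK.isOpen_compl (cob_cob (exz j g))
    (van_range hj.isEmbedding (by rw [← cob_pull, pull_exz hj.injective, hc]))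
    (Sb.cob_mem (exz_van hg))
  rw [range_union_compl] at hψ
  refine ⟨exz j g - ψ, Submodule.sub_mem _ (exz_van hg) h2, ?_, ?_⟩
  · rw [map_sub, ← neg_sub, eq_zero_of_van_univ hψ, neg_zero]
  · rw [map_sub, pull_exz hj.injective,
      eq_zero_of_van_univ (pull_mem (mapsTo_univ_iff_range_subset.2 subset_rfl) h1), sub_zero]

/-- a cocycle supported in `j '' K` whose restriction is exact is exact -/
theorem exa_of_pull (hS : SmVanS) {j : C(X, Y)} (hj : IsOpenEmbedding j) {K : Set X}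
    (hK : IsClosed (j '' K)) {φ : Co A (n + 1) Y} (hc : cob k φ = 0)
    (hφ : φ ∈ (On (j '' K)ᶜ).van k A (n + 1)) (h : pull k j φ ∈ Exa k A K (n + 1)) :
    φ ∈ Exa k A (j '' K) (n + 1) := by
  obtain ⟨b, hb, e⟩ := h
  obtain ⟨ψ, ⟨-, h2⟩, hψ⟩ := van_prim hS hj.isOpen_range hK.isOpen_compl
    (a := φ - cob k (exz j b)) (by simp [hc])
    (van_range hj.isEmbedding (by rw [map_sub, ← cob_pull, pull_exz hj.injective, e, sub_self]))
    (Submodule.sub_mem _ hφ (Sb.cob_mem (exz_van hb)))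
  rw [range_union_compl] at hψ
  refine ⟨exz j b + ψ, Submodule.add_mem _ (exz_van hb) h2, ?_⟩
  rw [map_add, sub_eq_zero.1 (eq_zero_of_van_univ hψ), add_sub_cancel]

end Crest.Agent.N255.Tp

end
end

-- ▼ part N255/Tp/LocS
section

/-!
# Row 255, block D (helper88): local cohomology along a ball (`LocS`)

`KK c j R = B^j × ℝ^(n-j)`; it is the union of two sets which can be pushed off themselves and which
intersect in `KK c (j + 1) R`.
-/

set_option autoImplicit false
open Set Filter Topology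

noncomputable section

namespace Crest.Agent.N255.Tp

variable {N : ℕ}

/-- square of the distance in the first `j` coordinates -/
def qq (c : EE N) (j : ℕ) (x : EE N) : ℝ := ∑ l : Fin N, if (l : ℕ) < j then (x l - c l) ^ 2 else 0

/-- cylinders -/
def KK (c : EE N) (j : ℕ) (R : ℝ) : Set (EE N) := {x | qq c j x ≤ R ^ 2}

/-- half cylinders -/
def KH (c : EE N) (l : Fin N) (s R : ℝ) : Set (EE N) :=
  {x | qq c l x + min (s * (x l - c l)) 0 ^ 2 ≤ R ^ 2}

theorem continuous_qq (c : EE N) (j : ℕ) : Continuous (qq c j) := by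
  refine continuous_finsetSum _ fun l _ => ?_
  split_ifs <;> fun_prop

theorem qq_nonneg (c : EE N) (j : ℕ) (x : EE N) : 0 ≤ qq c j x :=
  Finset.sum_nonneg fun l _ => by split_ifs <;> positivity

theorem qq_succ (c : EE N) (l : Fin N) (x : EE N) :
    qq c (l + 1) x = qq c l x + (x l - c l) ^ 2 := by
  have h : (x l - c l) ^ 2 = ∑ m : Fin N, if m = l then (x m - c m) ^ 2 else 0 := by simp
  rw [h, qq, qq, ← Finset.sum_add_distrib]
  refine Finset.sum_congr rfl fun m _ => ?_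
  by_cases h1 : m = l
  · simp [h1]
  · have h2 : (m : ℕ) ≠ l := fun e => h1 (Fin.ext e)
    by_cases h3 : (m : ℕ) < l
    · rw [if_pos h3, if_pos (by omega), if_neg h1, add_zero]
    · rw [if_neg h3, if_neg (by omega), if_neg h1, add_zero]

theorem qq_single (c : EE N) (l : Fin N) (x : EE N) (a : ℝ) :
    qq c l (x + EuclideanSpace.single l a) = qq c l x := by
  refine Finset.sum_congr rfl fun m _ => ?_
  split_ifs with h
  · have : m ≠ l := by rintro rfl; exact lt_irrefl _ h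
    simp [this]
  · rfl

theorem isClosed_KH (c : EE N) (l : Fin N) (s R : ℝ) : IsClosed (KH c l s R) :=
  isClosed_le ((continuous_qq c l).add (by fun_prop)) continuous_const

theorem KH_union (c : EE N) (l : Fin N) (R : ℝ) : KH c l 1 R ∪ KH c l (-1) R = KK c l R := by
  ext x
  simp only [KH, KK, mem_union, mem_ofPred_eq]
  constructor
  · rintro (h | h) <;> exact le_trans (le_add_of_nonneg_right (sq_nonneg _)) h
  · intro h
    rcases le_total 0 (x l - c l) with h1 | h1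
    · left; rw [min_eq_right (by linarith)]; simpa using h
    · right; rw [min_eq_right (by linarith)]; simpa using h

theorem KH_inter (c : EE N) (l : Fin N) (R : ℝ) : KH c l 1 R ∩ KH c l (-1) R = KK c (l + 1) R := by
  ext x
  simp only [KH, KK, mem_inter_iff, mem_ofPred_eq, qq_succ]
  rcases le_total 0 (x l - c l) with h1 | h1
  · rw [min_eq_right (by linarith), min_eq_left (by linarith)]
    constructor
    · rintro ⟨-, h⟩; nlinarith
    · intro h; constructor <;> nlinarith [sq_nonneg (x l - c l)]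
  · rw [min_eq_left (by linarith), min_eq_right (by linarith)]
    constructor
    · rintro ⟨h, -⟩; nlinarith
    · intro h; constructor <;> nlinarith [sq_nonneg (x l - c l)]

theorem KH_mono (c : EE N) (l : Fin N) (s R : ℝ) : KH c l s 0 ⊆ KH c l s R := fun _ h =>
  le_trans (b := (0 : ℝ) ^ 2) h (by simpa using sq_nonneg R)

theorem KK_mono (c : EE N) (j : ℕ) (R : ℝ) : KK c j 0 ⊆ KK c j R := fun _ h =>
  le_trans (b := (0 : ℝ) ^ 2) h (by simpa using sq_nonneg R)

theorem KK_zero (c : EE N) (R : ℝ) : KK c 0 R = univ :=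
  eq_univ_of_forall fun x => by simpa [KK, qq] using sq_nonneg R

theorem KK_top (c : EE N) {R : ℝ} (hR : 0 ≤ R) : KK c N R = Metric.closedBall c R := by
  ext x
  rw [Metric.mem_closedBall, EuclideanSpace.dist_eq, Real.sqrt_le_left hR]
  simp [KK, qq, Real.dist_eq]

variable {k : Type} [CommRing k] {A : Type} [AddCommGroup A] [Module k A]

theorem acS_KH (c : EE N) (l : Fin N) {s : ℝ} (hs : s * s = 1) (R : ℝ) :
    AcS k A (KH c l s R) := by
  have key : ∀ (x : EE N) (a : ℝ), x + EuclideanSpace.single l (-(a * s)) ∈ KH c l s R ↔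
      qq c l x + min (s * (x l - c l) - a) 0 ^ 2 ≤ R ^ 2 := by
    intro x a
    have : s * (x l + -(a * s) - c l) = s * (x l - c l) - a := by linear_combination (-a) * hs
    simp only [KH, mem_ofPred_eq, qq_single, PiLp.add_apply, PiLp.single_apply, if_true,
      this]
  refine acS_of_push ⟨fun p : EE N × unitInterval => p.1 + EuclideanSpace.single l
    (-((p.2 : ℝ) * (|s * (p.1 l - c l)| + |R| + 1) * s)), ?_⟩ (fun x => by simp) ?_ ?_
  · refine continuous_fst.add ?_
    have h : Continuous fun a : ℝ => (EuclideanSpace.single l a : EE N) :=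
      (continuous_id.smul (continuous_const (y := (EuclideanSpace.single l 1 : EE N)))).congr
        fun a => by ext m; by_cases hm : m = l <;> simp [hm]
    exact h.comp (by fun_prop)
  · intro x hx t h
    refine hx (le_trans ?_ ((key x _).1 h))
    have h0 : 0 ≤ (t : ℝ) * (|s * (x l - c l)| + |R| + 1) := mul_nonneg t.2.1 (by positivity)
    have h1 := min_le_min_right (0 : ℝ) (sub_le_self (s * (x l - c l)) h0)
    have h2 := min_le_right (s * (x l - c l)) 0
    nlinarith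
  · intro x h
    have h1 := (key x _).1 h
    have h2 := le_abs_self (s * (x l - c l))
    have h3 := abs_nonneg R
    have h4 := qq_nonneg c l x
    simp only [Icc.coe_one, one_mul] at h1
    rw [min_eq_left (by linarith), ← sq_abs R] at h1
    nlinarith

theorem genBy_KK (hS : SmVanS) (c : EE N) : ∀ j ≤ N, ∃ g : ∀ n, Co k n (EE N),
    (∀ n, n ≠ j → g n = 0) ∧ (∀ n, cob k (g n) = 0 ∧ g n ∈ (On (KK c j 0)ᶜ).van k k n) ∧
      ∀ R, GenBy k (KK c j R) g := by
  intro j
  induction j with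
  | zero =>
    intro _
    refine ⟨fun n => Nat.casesOn n (fun _ => (1 : k)) fun _ => 0, ?_, ?_, fun R => ?_⟩
    · rintro (_ | n) h
      · exact absurd rfl h
      · rfl
    · rintro (_ | n)
      · refine ⟨?_, fun σ hσ => absurd (hσ ⟨stdSimplex.vertex 0, rfl⟩) (by simp [KK_zero])⟩
        exact (cob_const (1 : k)).trans (by funext σ; simp)
      · exact ⟨map_zero _, Submodule.zero_mem _⟩
    · rw [KK_zero]
      exact genBy_univ (linH 0) 0 (fun x => by simp [linH_apply]) fun x => by simp [linH_apply]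
  | succ j ih =>
    intro hj
    obtain ⟨g, g0, g1, g2⟩ := ih (by omega)
    let l : Fin N := ⟨j, hj⟩
    choose p hp hm hc h0 using fun n => exists_conn hS (isClosed_KH c l 1 0)
      (isClosed_KH c l (-1) 0) (g n) (g1 n).1 (by rw [KH_union]; exact (g1 n).2)
    refine ⟨fun n => Nat.casesOn n 0 fun n => cob k (p n), ?_, ?_, fun R => ?_⟩
    · rintro (_ | n) h
      · rfl
      · change cob k (p n) = 0
        rw [h0 n (g0 n (by omega)), map_zero]
    · rintro (_ | n)
      · exact ⟨map_zero _, Submodule.zero_mem _⟩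
      · refine ⟨cob_cob _, ?_⟩
        have := hc n
        rwa [KH_inter] at this
    · have := GenBy.inter hS (isClosed_KH c l 1 R) (isClosed_KH c l (-1) R)
        (acS_KH c l (by norm_num) R) (acS_KH c l (by norm_num) R) (g := g) (p := p)
        (by rw [KH_union]; exact g2 R) (fun n => van_supp (KH_mono c l 1 R) (hp n))
        (fun n => van_supp (KH_mono c l (-1) R) (hm n))
        fun n => van_supp (inter_subset_inter (KH_mono c l 1 R) (KH_mono c l (-1) R)) (hc n)
      rwa [KH_inter] at this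

theorem locS_of (hS : SmVanS) : LocS := by
  intro k _ X _ _ d j hj c
  obtain ⟨g, g0, g1, g2⟩ := genBy_KK (k := k) hS c (d + 1) le_rfl
  have hcl : ∀ R, IsClosed (j '' Metric.closedBall c R) := fun R =>
    ((isCompact_closedBall c R).image j.continuous).isClosed
  have hg : ∀ R, 0 ≤ R → GenBy k (Metric.closedBall c R) g := fun R hR => KK_top c hR ▸ g2 R
  refine ⟨fun i hi R hR φ hc hφ => ?_, ?_⟩
  · obtain ⟨t, ht⟩ := hg R hR _ (pull k j φ) (by rw [cob_pull, hc, map_zero])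
      (pull_van hj.injective hφ)
    rw [g0 _ (by omega), smul_zero, sub_zero] at ht
    exact exa_of_pull hS hj (hcl R) hc hφ ht
  · obtain ⟨φ₀, h1, h2, h3⟩ := exists_extend hS hj (hcl 0) (g1 (d + 1)).1
      (KK_top c le_rfl ▸ (g1 (d + 1)).2)
    refine ⟨φ₀, by simpa using h1, h2, fun R hR φ hc hφ => ?_⟩
    obtain ⟨t, ht⟩ := hg R hR _ (pull k j φ) (by rw [cob_pull, hc, map_zero])
      (pull_van hj.injective hφ)
    obtain ⟨ψ, hψ, e⟩ := exa_of_pull hS hj (hcl R) (φ := φ - t • φ₀) (by simp [hc, h2])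
      (Submodule.sub_mem _ hφ (Submodule.smul_mem _ _
        (van_supp (image_mono (Metric.closedBall_subset_closedBall hR)) h1)))
      (by rwa [map_sub, map_smul, h3])
    exact ⟨t, ψ, hψ, by rw [e, add_sub_cancel]⟩

end Crest.Agent.N255.Tp

end
end

-- ▼ part N255/Tp/LocH
section

/-!
# Row 255, block D (helper88): `LocS` holds
-/

namespace Crest.Agent.N255.Tp

theorem locS_holds : LocS := locS_of smVanS_holds

end Crest.Agent.N255.Tp
end

-- ▼ part N255/Tp/OInd
section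

/-!
# Row 255 (D): induction over the open sets of a charted space
-/

set_option autoImplicit false

open Set Filter Topology

namespace Crest.Agent.N255.Tp

section
variable {X : Type} [TopologicalSpace X] {P : Set X → Prop}

theorem oi_fin {B : Set (Set X)} (ho : ∀ b ∈ B, IsOpen b)
    (hi : ∀ b ∈ B, ∀ c ∈ B, b ∩ c ∈ B) (hP : ∀ b ∈ B, P b) (h0 : P ∅)
    (hU : ∀ U V, IsOpen U → IsOpen V → P U → P V → P (U ∩ V) → P (U ∪ V)) (m : ℕ) :
    ∀ s : Finset (Set X), s.card ≤ m → (∀ b ∈ s, b ∈ B) → P (⋃₀ (s : Set (Set X))) := by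
  classical
  induction m with
  | zero =>
    intro s hs _
    rw [Nat.le_zero, Finset.card_eq_zero] at hs
    subst hs
    simpa using h0
  | succ m ih =>
    intro s hs hb
    rcases s.eq_empty_or_nonempty with rfl | ⟨a, ha⟩
    · simpa using h0
    have e : s = insert a (s.erase a) := (Finset.insert_erase ha).symm
    have hc : (s.erase a).card ≤ m := by rw [Finset.card_erase_of_mem ha]; omega
    have hb' : ∀ b ∈ s.erase a, b ∈ B := fun b h => hb b (Finset.mem_of_mem_erase h)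
    rw [e, Finset.coe_insert, sUnion_insert]
    refine hU _ _ (ho a (hb a ha)) (isOpen_sUnion fun b h => ho b (hb' b h)) (hP a (hb a ha))
      (ih _ hc hb') ?_
    have e2 : a ∩ ⋃₀ ((s.erase a : Finset (Set X)) : Set (Set X)) =
        ⋃₀ (((s.erase a).image fun b => a ∩ b : Finset (Set X)) : Set (Set X)) := by
      ext x
      simp only [mem_inter_iff, mem_sUnion, Finset.coe_image, mem_image, exists_exists_and_eq_and]
      exact ⟨fun ⟨h1, b, h2, h3⟩ => ⟨b, h2, h1, h3⟩, fun ⟨b, h2, h1, h3⟩ => ⟨h1, b, h2, h3⟩⟩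
    rw [e2]
    refine ih _ (Finset.card_image_le.trans hc) fun b h => ?_
    obtain ⟨c, hc, rfl⟩ := Finset.mem_image.1 h
    exact hi _ (hb a ha) _ (hb' c hc)

/-- an open set covered by members of an `∩`-closed family of good open subsets is good -/
theorem oi_basis {B : Set (Set X)} (ho : ∀ b ∈ B, IsOpen b)
    (hi : ∀ b ∈ B, ∀ c ∈ B, b ∩ c ∈ B) (hP : ∀ b ∈ B, P b) (h0 : P ∅)
    (hU : ∀ U V, IsOpen U → IsOpen V → P U → P V → P (U ∩ V) → P (U ∪ V))
    (hD : ∀ S : Set (Set X), S.Nonempty → DirectedOn (· ⊆ ·) S → (∀ U ∈ S, IsOpen U ∧ P U) →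
      P (⋃₀ S))
    {O : Set X} (hb : ∀ x ∈ O, ∃ b ∈ B, x ∈ b ∧ b ⊆ O) : P O := by
  classical
  have e : O = ⋃₀ {W | ∃ s : Finset (Set X), (∀ b ∈ s, b ∈ B ∧ b ⊆ O) ∧
      W = ⋃₀ (s : Set (Set X))} := by
    ext x
    constructor
    · intro hx
      obtain ⟨b, h1, h2, h3⟩ := hb x hx
      exact ⟨_, ⟨{b}, by simpa using ⟨h1, h3⟩, rfl⟩, by simpa using h2⟩
    · rintro ⟨_, ⟨s, hs, rfl⟩, b, h1, h2⟩
      exact (hs b h1).2 h2
  rw [e]
  refine hD _ ⟨_, ∅, by simp, rfl⟩ ?_ ?_
  · rintro _ ⟨s, hs, rfl⟩ _ ⟨t, ht, rfl⟩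
    refine ⟨_, ⟨s ∪ t, fun b h => (Finset.mem_union.1 h).elim (hs b) (ht b), rfl⟩, ?_, ?_⟩
    · exact sUnion_mono (by simp)
    · exact sUnion_mono (by simp)
  · rintro _ ⟨s, hs, rfl⟩
    exact ⟨isOpen_sUnion fun b h => ho b (hs b h).1,
      oi_fin ho hi hP h0 hU _ s le_rfl fun b h => (hs b h).1⟩

end

/-- Hatcher's induction: a property of open sets that holds for the convex sets of the charts and
is stable under Mayer-Vietoris and directed unions holds for every open set. -/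
theorem open_ind {X E : Type} [TopologicalSpace X] [NormedAddCommGroup E] [NormedSpace ℝ E]
    [ChartedSpace E X] {P : Set X → Prop} (h0 : P ∅)
    (hb : ∀ (x : X) (C : Set E), IsOpen C → Convex ℝ C → C.Nonempty → Bornology.IsBounded C →
      closure C ⊆ (chartAt E x).target → P ((chartAt E x).symm '' C))
    (hU : ∀ U V, IsOpen U → IsOpen V → P U → P V → P (U ∩ V) → P (U ∪ V))
    (hD : ∀ S : Set (Set X), S.Nonempty → DirectedOn (· ⊆ ·) S → (∀ U ∈ S, IsOpen U ∧ P U) →
      P (⋃₀ S))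
    {O : Set X} (hO : IsOpen O) : P O := by
  have h1 : ∀ (x : X) (W : Set X), IsOpen W → W ⊆ (chartAt E x).source → P W := by
    intro x W hW hs
    refine oi_basis (B := {b | ∃ C : Set E, IsOpen C ∧ Convex ℝ C ∧ Bornology.IsBounded C ∧
      closure C ⊆ (chartAt E x).target ∧ b = (chartAt E x).symm '' C}) ?_ ?_ ?_ h0 hU hD ?_
    · rintro _ ⟨C, h1, -, -, h3, rfl⟩
      exact (chartAt E x).symm.isOpen_image_of_subset_source h1 (subset_closure.trans h3)
    · rintro _ ⟨C, h1, h2, h2', h3, rfl⟩ _ ⟨D, g1, g2, -, g3, rfl⟩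
      refine ⟨C ∩ D, h1.inter g1, h2.inter g2, h2'.subset inter_subset_left,
        (closure_mono inter_subset_left).trans h3, ?_⟩
      exact ((chartAt E x).symm.injOn.image_inter (subset_closure.trans h3)
        (subset_closure.trans g3)).symm
    · rintro _ ⟨C, h1, h2, h2', h3, rfl⟩
      rcases C.eq_empty_or_nonempty with rfl | hne
      · simpa using h0
      · exact hb x C h1 h2 hne h2' h3
    · intro y hy
      have h2 : IsOpen ((chartAt E x).target ∩ (chartAt E x).symm ⁻¹' W) :=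
        (chartAt E x).isOpen_inter_preimage_symm hW
      have h3 : chartAt E x y ∈ (chartAt E x).target ∩ (chartAt E x).symm ⁻¹' W :=
        ⟨(chartAt E x).map_source (hs hy), by
          rw [mem_preimage, (chartAt E x).left_inv (hs hy)]; exact hy⟩
      obtain ⟨r, hr, h4⟩ := Metric.nhds_basis_closedBall.mem_iff.1 (h2.mem_nhds h3)
      refine ⟨_, ⟨Metric.ball (chartAt E x y) r, Metric.isOpen_ball, convex_ball _ _,
        Metric.isBounded_ball, Metric.closure_ball_subset_closedBall.trans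
          (h4.trans inter_subset_left), rfl⟩,
        ⟨_, Metric.mem_ball_self hr, (chartAt E x).left_inv (hs hy)⟩, ?_⟩
      rintro _ ⟨z, hz, rfl⟩
      exact (h4 (Metric.ball_subset_closedBall hz)).2
  refine oi_basis (B := {b | IsOpen b ∧ ∃ x, b ⊆ (chartAt E x).source}) (fun b h => h.1) ?_ ?_
    h0 hU hD ?_
  · rintro b ⟨h2, x, h3⟩ c ⟨g2, -⟩
    exact ⟨h2.inter g2, x, inter_subset_left.trans h3⟩
  · rintro b ⟨h2, x, h3⟩
    exact h1 x b h2 h3
  · intro x hx
    exact ⟨O ∩ (chartAt E x).source, ⟨hO.inter (chartAt E x).open_source, x, inter_subset_right⟩,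
      ⟨hx, mem_chart_source E x⟩, inter_subset_left⟩

/-- a bounded open convex set inside the target of a chart is the range of an open cell -/
theorem exists_cell {X E : Type} [TopologicalSpace X] [NormedAddCommGroup E] [NormedSpace ℝ E]
    (e : OpenPartialHomeomorph X E) {C : Set E} (h1 : IsOpen C) (h2 : Convex ℝ C) (h3 : C.Nonempty)
    (h4 : Bornology.IsBounded C) (h5 : C ⊆ e.target) :
    ∃ j : C(E, X), IsOpenEmbedding j ∧ range j = e.symm '' C := by
  obtain ⟨h, hh, -⟩ := exists_homeomorph_image_interior_closure_frontier_eq_unitBall h2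
    (by rwa [h1.interior_eq]) h4
  rw [h1.interior_eq] at hh
  have e1 : IsOpenEmbedding fun x : E => h.symm (Homeomorph.unitBall x : E) :=
    h.symm.isOpenEmbedding.comp
      (Metric.isOpen_ball.isOpenEmbedding_subtypeVal.comp Homeomorph.unitBall.isOpenEmbedding)
  have e2 : (range fun x : E => h.symm (Homeomorph.unitBall x : E)) = C := by
    ext y
    constructor
    · rintro ⟨x, rfl⟩
      have : (Homeomorph.unitBall x : E) ∈ h '' C := by rw [hh]; exact (Homeomorph.unitBall x).2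
      obtain ⟨z, hz, e⟩ := this
      simp only [← e, Homeomorph.symm_apply_apply]
      exact hz
    · intro hy
      have : h y ∈ Metric.ball (0 : E) 1 := by rw [← hh]; exact ⟨y, hy, rfl⟩
      exact ⟨Homeomorph.unitBall.symm ⟨h y, this⟩, by simp⟩
  have e3 : ∀ x : E, h.symm (Homeomorph.unitBall x : E) ∈ e.target := fun x =>
    h5 (e2 ▸ mem_range_self x)
  have e4 : IsOpenEmbedding fun x : E => e.symm (h.symm (Homeomorph.unitBall x : E)) := by
    have e5 : IsOpenEmbedding (codRestrict (fun x : E => h.symm (Homeomorph.unitBall x : E))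
        e.symm.source e3) :=
      IsOpenEmbedding.of_comp _ e.symm.open_source.isOpenEmbedding_subtypeVal e1
    exact e.symm.isOpenEmbedding_restrict.comp e5
  refine ⟨⟨_, e4.continuous⟩, e4, ?_⟩
  rw [← e2, ← range_comp]
  rfl

theorem openIndS_holds : OpenIndS := by
  intro d X _ _ P h0 hb hU hD U hO
  refine open_ind (E := EE d) h0 ?_ hU (fun S h1 h2 h3 => hD S h1 h3 h2) hO
  intro x C h1 h2 h3 h4 h5
  obtain ⟨j, hj, e⟩ := exists_cell (chartAt (EE d) x) h1 h2 h3 h4 (subset_closure.trans h5)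
  exact e ▸ hb j hj

end Crest.Agent.N255.Tp
end

-- ▼ part N255/Tp/Van

/-!
# Row 255, block D (helper46): `VanS` and `NdS`
-/

set_option autoImplicit false
open Set Filter Topology

noncomputable section

namespace Crest.Agent.N255.Tp

variable {X : Type} [TopologicalSpace X] {n : ℕ} {k : Type} [CommRing k] {A : Type}
  [AddCommGroup A] [Module k A]

/-- a cocycle vanishing off `K` and off `L` is cohomologous, with the same supports, to a cocycle
vanishing off `K ∩ L` -/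
theorem inter_supp (hs : SmVanS) {K L : Set X} (hK : IsClosed K) (hL : IsClosed L)
    {w : Co A (n + 1) X} (hw : cob k w = 0) (h1 : w ∈ (On Kᶜ).van k A (n + 1))
    (h2 : w ∈ (On Lᶜ).van k A (n + 1)) :
    ∃ η : Co A n X, η ∈ (On Kᶜ).van k A n ∧ η ∈ (On Lᶜ).van k A n ∧
      w - cob k η ∈ (On (K ∩ L)ᶜ).van k A (n + 1) := by
  obtain ⟨η, e, hT⟩ := hs k A X (K ∩ L)ᶜ {Kᶜ, Lᶜ}
    (by rintro _ (rfl | rfl); exacts [hK.isOpen_compl, hL.isOpen_compl])
    (by rw [compl_inter, sUnion_pair]) n w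
    (by rw [Sb.mem_Z, hw]; exact Submodule.zero_mem _)
    (Sb.van_mono Sb.inf_le_right (by rw [Sm_pair, Sb.van_sup]; exact ⟨h1, h2⟩))
  refine ⟨η, hT _ (van_mono inter_subset_left h1), hT _ (van_mono inter_subset_left h2), ?_⟩
  rw [← neg_sub]
  exact Submodule.neg_mem _ e

/-- Mayer-Vietoris splitting of compactly supported cocycles -/
theorem mv_split [T2Space X] (hs : SmVanS) {U V : Set X} (hU : IsOpen U) (hV : IsOpen V)
    (h : ∀ w ∈ Cc k (U ∩ V) A (n + 1), cob k w = 0 → ∃ θ ∈ Cc k (U ∩ V) A n, cob k θ = w)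
    {φ : Co A n X} (hφ : φ ∈ Cc k (U ∪ V) A n) (hc : cob k φ = 0) :
    ∃ a ∈ Cc k U A n, ∃ b ∈ Cc k V A n, cob k a = 0 ∧ cob k b = 0 ∧ φ = a + b := by
  rw [Cc_union hU hV, Submodule.mem_sup] at hφ
  obtain ⟨a, ⟨K, hK, hKU, ha⟩, b, ⟨L, hL, hLV, hb⟩, rfl⟩ := hφ
  have e : cob k b = -cob k a := by rw [map_add] at hc; exact eq_neg_of_add_eq_zero_right hc
  obtain ⟨η, h1, h2, h3⟩ := inter_supp hs hK.isClosed hL.isClosed (cob_cob (k := k) a)
    (Sb.cob_mem ha) (by rw [← neg_neg (cob k a), ← e]; exact Submodule.neg_mem _ (Sb.cob_mem hb))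
  obtain ⟨θ, hθ, e2⟩ := h _ ⟨K ∩ L, hK.inter hL, inter_subset_inter hKU hLV, h3⟩ (by simp)
  refine ⟨a - η - θ, Submodule.sub_mem _ ⟨K, hK, hKU, Submodule.sub_mem _ ha h1⟩
    (Cc_mono inter_subset_left hθ), b + η + θ, Submodule.add_mem _
    ⟨L, hL, hLV, Submodule.add_mem _ hb h2⟩ (Cc_mono inter_subset_right hθ), ?_, ?_, by abel⟩
  · rw [map_sub, map_sub, e2]; abel
  · rw [map_add, map_add, e2, e]; abel

theorem exists_ball {d : ℕ} {j : C(EE d, X)} (hj : IsEmbedding j) (c : EE d) {K : Set X}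
    (hK : IsCompact K) (h : K ⊆ range j) : ∃ R : ℝ, 0 ≤ R ∧ K ⊆ j '' Metric.closedBall c R := by
  have h1 : IsCompact (j ⁻¹' K) := by
    rw [hj.isInducing.isCompact_iff, image_preimage_eq_of_subset h]; exact hK
  obtain ⟨R, hR, h2⟩ := h1.isBounded.subset_closedBall_lt 0 c
  refine ⟨R, hR.le, fun x hx => ?_⟩
  obtain ⟨y, rfl⟩ := h hx
  exact ⟨y, h2 hx, rfl⟩

theorem Cc_sUnion {𝒰 : Set (Set X)} (hne : 𝒰.Nonempty) (ho : ∀ U ∈ 𝒰, IsOpen U)
    (hd : DirectedOn (· ⊆ ·) 𝒰) {φ : Co A n X} (h : φ ∈ Cc k (⋃₀ 𝒰) A n) :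
    ∃ U ∈ 𝒰, φ ∈ Cc k U A n := by
  obtain ⟨K, hK, hKU, h⟩ := h
  have : Nonempty 𝒰 := hne.to_subtype
  obtain ⟨U, hU⟩ := hK.elim_directed_cover (fun U : 𝒰 => (U : Set X)) (fun U => ho U U.2)
    (by rwa [← sUnion_eq_iUnion]) hd.directed_val
  exact ⟨U, U.2, K, hK, hU, h⟩

theorem Cc_empty {φ : Co A n X} (h : φ ∈ Cc k (∅ : Set X) A n) : φ = 0 := by
  obtain ⟨K, -, hK, h⟩ := h
  rw [subset_empty_iff] at hK
  subst hK
  rw [compl_empty] at h
  exact eq_zero_of_van_univ h

theorem vanS_of (hs : SmVanS) (hl : LocS) : VanS := by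
  intro k _ d X _ _ _ U hU
  refine openIndS_holds (d + 1) X (fun U => ∀ i, d < i → ∀ φ ∈ Cc k U k (i + 1), cob k φ = 0 →
    ∃ ψ ∈ Cc k U k i, cob k ψ = φ) ?_ ?_ ?_ ?_ U hU
  · intro i _ φ h _
    exact ⟨0, Submodule.zero_mem _, by rw [Cc_empty h, map_zero]⟩
  · rintro j hj i hi φ ⟨K, hK, hKU, h⟩ hc
    obtain ⟨R, hR, h2⟩ := exists_ball hj.isEmbedding 0 hK hKU
    obtain ⟨ψ, h3, e⟩ := (hl k X d j hj 0).1 i (by omega) R hR φ hc (van_supp h2 h)
    exact ⟨ψ, ⟨_, (isCompact_closedBall _ _).image j.continuous, image_subset_range _ _, h3⟩, e⟩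
  · intro U V hU hV h1 h2 h3 i hi φ h hc
    obtain ⟨a, ha, b, hb, ca, cb, rfl⟩ := mv_split hs hU hV (h3 (i + 1) (by omega)) h hc
    obtain ⟨s, hs, e1⟩ := h1 i hi a ha ca
    obtain ⟨t, ht, e2⟩ := h2 i hi b hb cb
    exact ⟨s + t, Submodule.add_mem _ (Cc_mono subset_union_left hs)
      (Cc_mono subset_union_right ht), by rw [map_add, e1, e2]⟩
  · intro 𝒰 hne h hd i hi φ hφ hc
    obtain ⟨U, hU, h1⟩ := Cc_sUnion hne (fun U hU => (h U hU).1) hd hφ
    obtain ⟨ψ, h2, e⟩ := (h U hU).2 i hi φ h1 hc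
    exact ⟨ψ, Cc_mono (subset_sUnion_of_mem hU) h2, e⟩

/-- compactly supported top cocycles are generated by those supported in cells -/
theorem top_ind (hs : SmVanS) (hl : LocS) {d : ℕ} [T2Space X] [ChartedSpace (EE (d + 1)) X]
    {Q : Co k (d + 1) X → Prop} (h0 : Q 0)
    (hadd : ∀ a ∈ Cc k univ k (d + 1), ∀ b ∈ Cc k univ k (d + 1), cob k a = 0 → cob k b = 0 →
      Q a → Q b → Q (a + b)) {U : Set X} (hU : IsOpen U)
    (hb : ∀ j : C(EE (d + 1), X), IsOpenEmbedding j → range j ⊆ U →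
      ∀ φ ∈ Cc k (range j) k (d + 1), cob k φ = 0 → Q φ) :
    ∀ φ ∈ Cc k U k (d + 1), cob k φ = 0 → Q φ := by
  refine openIndS_holds (d + 1) X (fun W => W ⊆ U → ∀ φ ∈ Cc k W k (d + 1), cob k φ = 0 → Q φ)
    ?_ hb ?_ ?_ U hU le_rfl
  · intro _ φ h _
    rw [Cc_empty h]; exact h0
  · intro V W hV hW h1 h2 _ hsub φ h hc
    obtain ⟨a, ha, b, hb, ca, cb, rfl⟩ := mv_split hs hV hW
      (vanS_of hs hl k d X _ (hV.inter hW) (d + 1) (by omega)) h hc
    exact hadd a (Cc_mono (subset_univ _) ha) b (Cc_mono (subset_univ _) hb) ca cb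
      (h1 (subset_union_left.trans hsub) a ha ca) (h2 (subset_union_right.trans hsub) b hb cb)
  · intro 𝒰 hne h hd hsub φ hφ hc
    obtain ⟨W, hW, h1⟩ := Cc_sUnion hne (fun U hU => (h U hU).1) hd hφ
    exact (h W hW).2 ((subset_sUnion_of_mem hW).trans hsub) φ h1 hc

theorem exists_cell_mem {d : ℕ} [ChartedSpace (EE d) X] (x : X) {W : Set X} (hW : W ∈ 𝓝 x) :
    ∃ j : C(EE d, X), IsOpenEmbedding j ∧ x ∈ range j ∧ range j ⊆ W := by
  have h1 : (chartAt (EE d) x).target ∩ (chartAt (EE d) x).symm ⁻¹' W ∈ 𝓝 (chartAt (EE d) x x) :=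
    inter_mem (chart_target_mem_nhds _ x) (((chartAt (EE d) x).continuousAt_symm
      (mem_chart_target _ x)).preimage_mem_nhds
        (by rwa [(chartAt (EE d) x).left_inv (mem_chart_source _ x)]))
  obtain ⟨r, hr, h2⟩ := Metric.mem_nhds_iff.1 h1
  obtain ⟨j, hj, e⟩ := exists_cell (chartAt (EE d) x) Metric.isOpen_ball (convex_ball _ r)
    ⟨_, Metric.mem_ball_self hr⟩ Metric.isBounded_ball (h2.trans inter_subset_left)
  refine ⟨j, hj, e ▸ ⟨_, Metric.mem_ball_self hr,
    (chartAt (EE d) x).left_inv (mem_chart_source _ x)⟩, ?_⟩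
  rw [e]
  rintro _ ⟨y, hy, rfl⟩
  exact (h2 hy).2

namespace Ori

variable {d : ℕ} (O : Ori k d X) {K L : Set X}

theorem ev_mono (hK : IsCompact K) (hL : IsCompact L) (h : K ⊆ L) {φ : Co A (d + 1) X}
    (hφ : φ ∈ (On Kᶜ).van k A (d + 1)) (hc : cob k φ = 0) : ev k φ (O.μ L) = ev k φ (O.μ K) :=
  ((O.fund_μ hL).mono hK hL h).ev_eq (O.fund_μ hK) hφ hc

theorem ev_indep (hK : IsCompact K) (hL : IsCompact L) {φ : Co A (d + 1) X}
    (hφ : φ ∈ (On Kᶜ).van k A (d + 1)) (hφ' : φ ∈ (On Lᶜ).van k A (d + 1)) (hc : cob k φ = 0) :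
    ev k φ (O.μ K) = ev k φ (O.μ L) := by
  rw [← O.ev_mono hK (hK.union hL) subset_union_left hφ hc,
    O.ev_mono hL (hK.union hL) subset_union_right hφ' hc]

theorem ev_cob (hK : IsCompact K) {ψ : Co A d X} (hψ : ψ ∈ (On Kᶜ).van k A d) :
    ev k (cob k ψ) (O.μ K) = 0 := by
  rw [← ev_bd]; exact Sb.ev_eq_zero hψ (O.rc K hK)

/-- the integral vanishes -/
def Z0 (φ : Co A (d + 1) X) : Prop :=
  ∀ K, IsCompact K → φ ∈ (On Kᶜ).van k A (d + 1) → ev k φ (O.μ K) = 0

theorem z0_of (hK : IsCompact K) {φ : Co A (d + 1) X} (hφ : φ ∈ (On Kᶜ).van k A (d + 1))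
    (hc : cob k φ = 0) (h : ev k φ (O.μ K) = 0) : O.Z0 φ := fun _ hL hφ' => by
  rw [O.ev_indep hL hK hφ' hφ hc, h]

theorem z0_add {a b : Co A (d + 1) X} (ha : a ∈ Cc k univ A (d + 1)) (hb : b ∈ Cc k univ A (d + 1))
    (ca : cob k a = 0) (cb : cob k b = 0) (h1 : O.Z0 a) (h2 : O.Z0 b) : O.Z0 (a + b) := by
  obtain ⟨K, hK, -, ha⟩ := ha
  obtain ⟨L, hL, -, hb⟩ := hb
  have h3 := van_supp (subset_union_left (t := L)) ha
  have h4 := van_supp (subset_union_right (s := K)) hb
  refine O.z0_of (hK.union hL) (Submodule.add_mem _ h3 h4) (by rw [map_add, ca, cb, add_zero]) ?_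
  rw [ev_add, h1 _ (hK.union hL) h3, h2 _ (hK.union hL) h4, add_zero]

/-- if the local degree at one point of a cell vanishes, so do all integrals over the cell -/
theorem z0_cell (hl : LocS) [T2Space X] {j : C(EE (d + 1), X)} (hj : IsOpenEmbedding j)
    {c : EE (d + 1)} (h : O.μ {j c} ∈ Nul k {j c}ᶜ (d + 1)) {φ : Co k (d + 1) X}
    (hφ : φ ∈ Cc k (range j) k (d + 1)) (hc : cob k φ = 0) : O.Z0 φ := by
  obtain ⟨K, hK, hKU, hφ⟩ := hφ
  obtain ⟨R, hR, h2⟩ := exists_ball hj.isEmbedding c hK hKU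
  obtain ⟨φ₀, h3, c0, h4⟩ := (hl k X d j hj c).2
  obtain ⟨t, ψ, h5, e⟩ := h4 R hR φ hc (van_supp h2 hφ)
  have hB : IsCompact (j '' Metric.closedBall c R) := (isCompact_closedBall _ _).image j.continuous
  refine O.z0_of hB (van_supp h2 hφ) hc ?_
  rw [e, ev_add, ev_smul, O.ev_cob hB h5, add_zero, O.ev_mono isCompact_singleton hB
    (singleton_subset_iff.2 ⟨c, Metric.mem_closedBall_self hR, rfl⟩) h3 c0, ev_Nul h3 c0 h,
    smul_zero]

end Ori

theorem exists_cocycle {k : Type} [Field k] {U : Set X} {c : Ch k n X} (h : c ∉ Nul k U n) :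
    ∃ φ ∈ (On U).van k k n, cob k φ = 0 ∧ ev k φ c ≠ 0 := by
  obtain ⟨f, h1, h2⟩ := Submodule.exists_dual_map_eq_bot_of_notMem h inferInstance
  have h3 : ∀ x ∈ Nul k U n, f x = 0 := fun x hx => by
    have : f x ∈ (Nul k U n).map f := ⟨x, hx, rfl⟩
    rwa [h2, Submodule.mem_bot] at this
  refine ⟨fun σ => f (sg k σ), fun σ hσ => h3 _ (ch_le_Nul (Sb.sg_mem hσ)), ?_, ?_⟩
  · funext σ
    rw [← ev_sg (k := k) (cob k _) σ, ← ev_bd, ← map_eq_ev]
    exact h3 _ (bd_mem_Nul U _)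
  · rwa [← map_eq_ev]

theorem ndS_of (hs : SmVanS) (hl : LocS) : NdS := by
  intro k _ d X _ _ _ _ O K φ hK hφ hc hne
  have key : ∀ j : C(EE (d + 1), X), IsOpenEmbedding j → ∀ x ∈ range j, ∀ y ∈ range j,
      O.μ {x} ∈ Nul k {x}ᶜ (d + 1) → O.μ {y} ∈ Nul k {y}ᶜ (d + 1) := by
    rintro j hj _ ⟨c, rfl⟩ y hy h
    by_contra h'
    obtain ⟨ψ, h1, h2, h3⟩ := exists_cocycle h'
    exact h3 (O.z0_cell hl hj h ⟨{y}, isCompact_singleton, singleton_subset_iff.2 hy, h1⟩ h2 _
      isCompact_singleton h1)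
  have hcl : IsClopen {x | O.μ {x} ∈ Nul k {x}ᶜ (d + 1)} := by
    constructor
    · rw [← isOpen_compl_iff, isOpen_iff_mem_nhds]
      intro x hx
      obtain ⟨j, hj, h1, -⟩ := exists_cell_mem (d := d + 1) x univ_mem
      exact mem_of_superset (hj.isOpen_range.mem_nhds h1) fun y hy h => hx (key j hj y hy x h1 h)
    · rw [isOpen_iff_mem_nhds]
      intro x hx
      obtain ⟨j, hj, h1, -⟩ := exists_cell_mem (d := d + 1) x univ_mem
      exact mem_of_superset (hj.isOpen_range.mem_nhds h1) fun y hy => key j hj x h1 y hy hx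
  rcases isClopen_iff.1 hcl with h | h
  · intro x hx
    exact eq_empty_iff_forall_notMem.1 h x hx
  · have h3 : O.Z0 φ := by
      refine top_ind (Q := fun ψ : Co k (d + 1) X => O.Z0 ψ) hs hl (fun _ _ _ => ev_zero _)
        (fun a ha b hb => O.z0_add ha hb) isOpen_univ ?_ φ ⟨K, hK, subset_univ _, hφ⟩ hc
      intro j hj _ ψ h1 h2
      have h4 : O.μ {j 0} ∈ Nul k {j 0}ᶜ (d + 1) := eq_univ_iff_forall.1 h (j 0)
      exact O.z0_cell hl hj h4 h1 h2
    exact (hne (h3 K hK hφ)).elim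

end Crest.Agent.N255.Tp

end
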