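import Crest.Agent.N255.Tp.Du
import Crest.Agent.N255.Tp.Sm
import Crest.Agent.N255.Tp.Cell
import Crest.Agent.N255.Tp.Van_Mg
import Crest.Agent.N255.Tp.Uct
import Crest.Agent.N255.Tp.Det
import Crest.Agent.N255.Tp.Cap

-- ▼ part N255/Tp/Pd
section

/-!
# Row 255, block D (helper72): Poincaré duality for every open set of a topological manifold
-/

set_option autoImplicit false
open Set Filter Topology

noncomputable section

namespace Crest.Agent.N255.Tp

namespace Pd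

variable {X : Type} [TopologicalSpace X] {k : Type} [Field k] {d : ℕ} (O : Ori k d X)
  (D : ∀ {n : ℕ} (j : ℕ) {i : ℕ}, Co k i X → Ch k n X →ₗ[k] Ch k j X)

/-- surjectivity -/
def S (U : Set X) (i j : ℕ) : Prop := ∀ c ∈ (On U).ch k j, c ∈ cyc k X j →
  ∃ φ ∈ Cc k U k i, cob k φ = 0 ∧ O.Du D U φ c

/-- injectivity -/
def I (U : Set X) (i : ℕ) : Prop := ∀ φ ∈ Cc k U k (i + 1), cob k φ = 0 →
  (∀ j, i + 1 + j = d + 1 → O.Du D U φ (0 : Ch k j X)) → ∃ ψ ∈ Cc k U k i, cob k ψ = φ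

/-- duality -/
def P (U : Set X) : Prop := (∀ i j, i + j = d + 1 → S O D U i j) ∧ ∀ i, I O D U i

variable {O D} {U V : Set X}

theorem empty : P O D ∅ := by
  refine ⟨fun i j _ c hc _ => ⟨0, Submodule.zero_mem _, map_zero _, ?_⟩, ?_⟩
  · rw [eq_zero_of_ch_empty hc]; exact Ori.du_zero
  · rintro i φ ⟨K, -, hK, h⟩ - -
    rw [subset_empty_iff.1 hK, compl_empty] at h
    exact ⟨0, Submodule.zero_mem _, by rw [eq_zero_of_van_univ h, map_zero]⟩

theorem dir {𝒰 : Set (Set X)} (hne : 𝒰.Nonempty) (h : ∀ U ∈ 𝒰, IsOpen U ∧ P O D U)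
    (hd : DirectedOn (· ⊆ ·) 𝒰) : P O D (⋃₀ 𝒰) := by
  have ho := fun U hU => (h U hU).1
  refine ⟨fun i j hij c hc hz => ?_, ?_⟩
  · obtain ⟨U, hU, e⟩ := Ori.cpt_dir hne ho hd (isCompact_car c) (mem_ch_iff_car.1 hc)
    obtain ⟨φ, a, b, c⟩ := (h U hU).2.1 i j hij c (mem_ch_iff_car.2 e) hz
    exact ⟨φ, Cc_mono (subset_sUnion_of_mem hU) a, b, c.mono (subset_sUnion_of_mem hU)⟩
  · rintro i φ ⟨K, hK, hKU, hφ⟩ hc hu
    obtain ⟨U, hU, e⟩ := Ori.cpt_dir hne ho hd hK hKU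
    obtain ⟨W, hW, hUW, hw⟩ : ∃ W ∈ 𝒰, U ⊆ W ∧ ∀ j, i + 1 + j = d + 1 → O.Du D W φ (0 : Ch k j X) := by
      by_cases hi : i ≤ d
      · obtain ⟨U', hU', e'⟩ := (hu (d - i) (by omega)).dir hne ho hd
        obtain ⟨W, hW, a, b⟩ := hd U hU U' hU'
        refine ⟨W, hW, a, fun j hj => ?_⟩
        obtain rfl : j = d - i := by omega
        exact e'.mono b
      · exact ⟨U, hU, subset_rfl, fun j hj => by omega⟩
    obtain ⟨ψ, a, b⟩ := (h W hW).2.2 i φ ⟨K, hK, e.trans hUW, hφ⟩ hc hw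
    exact ⟨ψ, Cc_mono (subset_sUnion_of_mem hW) a, b⟩

variable [T2Space X] (hS : SmVanS) (hC : SmChS) (hF : FundS) (hD : CapLike k X D)

include hC hF hD in
theorem union_S (hU : IsOpen U) (hV : IsOpen V) (pU : P O D U) (pV : P O D V) (pW : P O D (U ∩ V))
    {i j : ℕ} (hij : i + j = d + 1) : S O D (U ∪ V) i j := by
  have hUV := hU.union hV
  have two : ∀ u ∈ (On U).ch k j, ∀ v ∈ (On V).ch k j, u ∈ cyc k X j → v ∈ cyc k X j →
      ∃ φ ∈ Cc k (U ∪ V) k i, cob k φ = 0 ∧ O.Du D (U ∪ V) φ (u + v) := by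
    intro u hu v hv cu cv
    obtain ⟨a, a1, a2, a3⟩ := pU.1 i j hij u hu cu
    obtain ⟨b, b1, b2, b3⟩ := pV.1 i j hij v hv cv
    exact ⟨a + b, Submodule.add_mem _ (Cc_mono subset_union_left a1) (Cc_mono subset_union_right b1),
      by rw [map_add, a2, b2, add_zero],
      (a3.mono subset_union_left).add hC hF hD hij hUV (b3.mono subset_union_right) a2 b2⟩
  intro c hc hz
  cases j with
  | zero =>
    rw [ch_zero_union] at hc
    obtain ⟨u, hu, v, hv, rfl⟩ := Submodule.mem_sup.1 hc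
    exact two u hu v hv trivial trivial
  | succ j =>
    have hz' : bd k c = 0 := hz
    obtain ⟨cU, hcU, cV, hcV, e⟩ := split_ch hC hU hV hc (by rw [hz']; exact Submodule.zero_mem _)
    have h0 : bd k cU + bd k cV = 0 := by
      have : bd k (c - (cU + cV)) = 0 := Sb.B_le_cyc e
      rwa [map_sub, hz', zero_sub, neg_eq_zero, map_add] at this
    have hneg : bd k cU = -bd k cV := eq_neg_of_add_eq_zero_left h0
    obtain ⟨u, hu0, hu⟩ := Ori.du_mv (O := O) (i := i) (j := j) hF hD (by omega) hU hV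
    have hBU : u • bd k cU ∈ (On U).B k j := Submodule.smul_mem _ _ (Sb.bd_mem_B hcU)
    have hBV : u • bd k cU ∈ (On V).B k j :=
      Submodule.smul_mem _ _ (hneg ▸ Submodule.neg_mem _ (Sb.bd_mem_B hcV))
    obtain ⟨θ, t1, t2, t3⟩ := pW.1 (i + 1) j (by omega) (u • bd k cU)
      (by rw [ch_inter]; exact ⟨Sb.B_le_ch hBU, Sb.B_le_ch hBV⟩) (Sb.B_le_cyc hBU)
    obtain ⟨a, a1, a2⟩ := pU.2 i θ (Cc_mono inter_subset_left t1) t2 fun j' hj => by
      obtain rfl : j' = j := by omega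
      exact (t3.mono inter_subset_left).congr (by simpa using hBU)
    obtain ⟨b, b1, b2⟩ := pV.2 i θ (Cc_mono inter_subset_right t1) t2 fun j' hj => by
      obtain rfl : j' = j := by omega
      exact (t3.mono inter_subset_right).congr (by simpa using hBV)
    have hab : cob k (a + -b) = 0 := by rw [map_add, map_neg, a2, b2, add_neg_cancel]
    obtain ⟨eU, heU, eV, heV, f1, f2⟩ := hu a a1 (-b) (Submodule.neg_mem _ b1) (a2 ▸ t1)
    rw [a2] at f2
    replace hu0 := hu0.ne_zero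
    obtain ⟨w, hw, hw'⟩ := t3.unique hC hF hD (by omega) (hU.inter hV) f2 t2
    have h1 : bd k (eU + eV) = 0 := by
      obtain ⟨c', -, c2, c3⟩ := Ori.du_exists (O := O) (j := j + 1) hF hD hij hUV f1.mem_Cc hab
      have h2 : bd k (c' - (eU + eV)) = 0 := Sb.B_le_cyc (c3.unique hC hF hD hij hUV f1 hab)
      have h3 : bd k c' = 0 := c2
      rwa [map_sub, h3, zero_sub, neg_eq_zero] at h2
    have hb : bd k (u⁻¹ • w) = bd k cU - bd k eU := by
      rw [map_smul, hw', ← smul_sub, smul_smul, inv_mul_cancel₀ hu0, one_smul]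
    obtain ⟨φ, p1, p2, p3⟩ := two (cU - eU - u⁻¹ • w)
      (Submodule.sub_mem _ (Submodule.sub_mem _ hcU heU)
        (Submodule.smul_mem _ _ (ch_mono inter_subset_left hw)))
      (cV - eV + u⁻¹ • w) (Submodule.add_mem _ (Submodule.sub_mem _ hcV heV)
        (Submodule.smul_mem _ _ (ch_mono inter_subset_right hw)))
      (by change bd k _ = 0; rw [map_sub, map_sub, hb, sub_self])
      (by
        change bd k _ = 0
        rw [map_add] at h1
        rw [map_add, map_sub, hb]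
        linear_combination (norm := abel_nf) h0 - h1)
    refine ⟨a + -b + φ, Submodule.add_mem _ f1.mem_Cc p1, by rw [map_add, hab, p2, add_zero],
      (f1.add hC hF hD hij hUV p3 hab p2).congr ?_⟩
    have := Submodule.neg_mem _ e
    convert this using 1
    abel

include hS hC hF hD in
theorem union_I (hU : IsOpen U) (hV : IsOpen V) (pU : P O D U) (pV : P O D V) (pW : P O D (U ∩ V))
    (i : ℕ) : I O D (U ∪ V) i := by
  have hUV := hU.union hV
  intro φ hφ hc hu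
  rw [Cc_union hU hV] at hφ
  obtain ⟨a0, ⟨K, hK, hKU, ha⟩, b0, ⟨L, hL, hLV, hb⟩, rfl⟩ := Submodule.mem_sup.1 hφ
  have hneg : cob k a0 = -cob k b0 := eq_neg_of_add_eq_zero_left (by rwa [map_add] at hc)
  obtain ⟨χ, ⟨c1, c2⟩, c3⟩ := supp_inter hS hK.isClosed hL.isClosed (φ := cob k a0) (Sb.cob_mem ha)
    (hneg ▸ Submodule.neg_mem _ (Sb.cob_mem hb)) (by rw [Sb.mem_Z, cob_cob]; exact Submodule.zero_mem _)
  have ha1 : a0 - χ ∈ Cc k U k (i + 1) := ⟨K, hK, hKU, Submodule.sub_mem _ ha c1⟩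
  have hb1 : b0 + χ ∈ Cc k V k (i + 1) := ⟨L, hL, hLV, Submodule.add_mem _ hb c2⟩
  have hθ : cob k (a0 - χ) ∈ Cc k (U ∩ V) k (i + 1 + 1) :=
    ⟨K ∩ L, hK.inter hL, inter_subset_inter hKU hLV, by rwa [map_sub]⟩
  have hs : a0 + b0 = (a0 - χ) + (b0 + χ) := by abel
  rw [hs] at hc hu ⊢
  generalize a0 - χ = a at *
  generalize b0 + χ = b at *
  have key : ∀ {j : ℕ} {cU cV : Ch k j X}, cU ∈ (On U).ch k j → cV ∈ (On V).ch k j →
      cU + cV ∈ (On (U ∪ V)).B k j → ∃ g ∈ (On (U ∩ V)).ch k j,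
        cU - g ∈ (On U).B k j ∧ cV + g ∈ (On V).B k j := by
    intro j cU cV h1 h2 h3
    obtain ⟨wU, h4, wV, h5, e⟩ := split_B hC hU hV h3 (Submodule.add_mem_sup h1 h2)
    have e' : cU - bd k wU = bd k wV - cV := by linear_combination (norm := abel_nf) e
    refine ⟨cU - bd k wU, ?_, by simpa using Sb.bd_mem_B h4, ?_⟩
    · rw [ch_inter]
      exact ⟨Submodule.sub_mem _ h1 (Sb.bd_mem h4), e' ▸ Submodule.sub_mem _ (Sb.bd_mem h5) h2⟩
    · rw [e']; simpa using Sb.bd_mem_B h5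
  obtain ⟨r, r1, r2⟩ := pW.2 (i + 1) _ hθ (cob_cob a) fun j hj => by
    obtain ⟨u, -, hu'⟩ := Ori.du_mv (O := O) (i := i + 1) (j := j) hF hD (by omega) hU hV
    obtain ⟨cU, h1, cV, h2, f1, f2⟩ := hu' a ha1 b hb1 hθ
    obtain ⟨g, g1, g2, -⟩ := key h1 h2
      (by simpa using f1.unique hC hF hD (by omega) hUV (hu (j + 1) (by omega)) hc)
    have : bd k (cU - g) = 0 := Sb.B_le_cyc g2
    rw [map_sub, sub_eq_zero] at this
    exact f2.congr (by rw [sub_zero, this]; exact Submodule.smul_mem _ _ (Sb.bd_mem_B g1))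
  have ha2 : a - r ∈ Cc k U k (i + 1) := Submodule.sub_mem _ ha1 (Cc_mono inter_subset_left r1)
  have hb2 : b + r ∈ Cc k V k (i + 1) := Submodule.add_mem _ hb1 (Cc_mono inter_subset_right r1)
  have ca : cob k (a - r) = 0 := by rw [map_sub, r2, sub_self]
  have cb : cob k (b + r) = 0 := by
    rw [map_add, r2]; rw [map_add] at hc; exact (add_comm _ _).trans hc
  have hs2 : a + b = (a - r) + (b + r) := by abel
  rw [hs2] at hc hu ⊢
  generalize a - r = a' at *
  generalize b + r = b' at *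
  obtain ⟨ρ, p1, p2, p3⟩ : ∃ ρ ∈ Cc k (U ∩ V) k (i + 1), cob k ρ = 0 ∧ ∀ j, i + 1 + j = d + 1 →
      O.Du D U (a' + -ρ) (0 : Ch k j X) ∧ O.Du D V (b' + ρ) (0 : Ch k j X) := by
    by_cases hi : i ≤ d
    · have hj : i + 1 + (d - i) = d + 1 := by omega
      obtain ⟨c1, h1, z1, d1⟩ := Ori.du_exists (O := O) hF hD hj hU ha2 ca
      obtain ⟨c2, h2, z2, d2⟩ := Ori.du_exists (O := O) hF hD hj hV hb2 cb
      obtain ⟨g, g1, g2, g3⟩ := key h1 h2 (by
        simpa using ((d1.mono subset_union_left).add hC hF hD hj hUV (d2.mono subset_union_right)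
          ca cb).unique hC hF hD hj hUV (hu _ hj) hc)
      obtain ⟨ρ, p1, p2, p3⟩ := pW.1 _ _ hj g g1
        (by simpa using Submodule.sub_mem _ z1 (Sb.B_le_cyc g2))
      refine ⟨ρ, p1, p2, fun j hj' => ?_⟩
      obtain rfl : j = d - i := by omega
      exact ⟨(d1.add hC hF hD hj hU ((p3.mono inter_subset_left).neg hD) ca
          (by rw [map_neg, p2, neg_zero])).congr (by simpa [sub_eq_add_neg] using g2),
        (d2.add hC hF hD hj hV (p3.mono inter_subset_right) cb p2).congr (by simpa using g3)⟩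
    · exact ⟨0, Submodule.zero_mem _, map_zero _, fun j hj => by omega⟩
  obtain ⟨α, a1, a2⟩ := pU.2 i (a' + -ρ)
    (Submodule.add_mem _ ha2 (Submodule.neg_mem _ (Cc_mono inter_subset_left p1)))
    (by rw [map_add, map_neg, ca, p2, neg_zero, add_zero]) fun j hj => (p3 j hj).1
  obtain ⟨β, b1, b2⟩ := pV.2 i (b' + ρ) (Submodule.add_mem _ hb2 (Cc_mono inter_subset_right p1))
    (by rw [map_add, cb, p2, add_zero]) fun j hj => (p3 j hj).2
  exact ⟨α + β, Submodule.add_mem _ (Cc_mono subset_union_left a1) (Cc_mono subset_union_right b1),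
    by rw [map_add, a2, b2]; abel⟩

omit [T2Space X] in
theorem exists_loc (hU : UctS) (hO : O.ND) (x : X) :
    ∃ φ ∈ (On {x}ᶜ).van k k (d + 1), cob k φ = 0 ∧ ev k φ (O.μ {x}) ≠ 0 := by
  obtain ⟨φ, h1, h2⟩ := (hU k X (d + 1)).1 _ _ (hO x)
  refine ⟨φ, fun σ hσ => ?_, funext fun σ => ?_, h2⟩
  · simpa using h1 _ (ch_le_Nul (Sb.sg_mem hσ))
  · have := h1 _ (bd_mem_Nul {x}ᶜ (sg k σ))
    rwa [ev_bd, ev_sg] at this

include hC hF hD in
theorem cell (hE : CellS) (hL : LocS) (hU : UctS) (hO : O.ND) (f : C(EE (d + 1), X))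
    (hf : IsOpenEmbedding f) : P O D (range f) := by
  have ho := hf.isOpen_range
  have hA := hE k X (d + 1) f hf.isEmbedding
  obtain ⟨φ1, q1, q2, q3⟩ := exists_loc hU hO (f 0)
  refine ⟨fun i j hij c hc hz => ?_, ?_⟩
  · cases j with
    | succ j =>
      exact ⟨0, Submodule.zero_mem _, map_zero _,
        Ori.du_zero.congr (by simpa using hA (j + 1) ⟨hc, hz⟩)⟩
    | zero =>
      obtain rfl : i = d + 1 := by omega
      have hx : ({f 0} : Set X) ⊆ range f := by simp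
      obtain ⟨z, hz, hz'⟩ := fund_in hF O isCompact_singleton ho hx
      have e := hz'.ev_eq (O.fund_μ isCompact_singleton) q1 q2
      have q1' := Submodule.smul_mem _ (aug k c / ev k φ1 (O.μ {f 0})) q1
      refine ⟨_, ⟨_, isCompact_singleton, hx, q1'⟩, by rw [map_smul, q2, smul_zero],
        _, z, isCompact_singleton, hx, q1', hz, hz', hA 0 ⟨Submodule.sub_mem _ (hD.mem _ _ _ hz) hc, ?_⟩⟩
      change aug k _ = 0
      rw [map_sub, hD.aug, ev_smul, e, smul_eq_mul, div_mul_cancel₀ _ q3, sub_self]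
  · rintro i φ ⟨K, hK, hKU, hφ⟩ hc hu
    have hK' : IsCompact (f ⁻¹' K) := hf.isInducing.isCompact_preimage' hK hKU
    obtain ⟨R, hR0, hR⟩ := hK'.isBounded.subset_closedBall_lt 0 0
    have hB : IsCompact (f '' Metric.closedBall 0 R) := (isCompact_closedBall _ _).image f.continuous
    have hKB : K ⊆ f '' Metric.closedBall 0 R := fun x hx => by
      obtain ⟨y, rfl⟩ := hKU hx
      exact ⟨y, hR hx, rfl⟩
    have hBU : f '' Metric.closedBall 0 R ⊆ range f := image_subset_range _ _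
    obtain ⟨l1, φ0, l2, l3, l4⟩ := hL k X d f hf 0
    have hφ' := van_supp hKB hφ
    by_cases hi : i = d
    · subst hi
      obtain ⟨t, ψ, p1, p2⟩ := l4 R hR0.le φ hc hφ'
      have hx : ({f 0} : Set X) ⊆ f '' Metric.closedBall 0 R := by
        rintro _ rfl; exact ⟨0, by simpa using hR0.le, rfl⟩
      obtain ⟨t1, ψ1, p3, p4⟩ := l4 R hR0.le φ1 q2 (van_supp hx q1)
      obtain ⟨z, hz, hz'⟩ := fund_in hF O hB ho hBU
      have e := (hz'.mono isCompact_singleton hB hx).ev_eq (O.fund_μ isCompact_singleton) q1 q2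
      have h0 : ev k φ0 z ≠ 0 := fun h => q3 (by
        rw [← e, p4, ev_add, ev_smul, h, ← ev_bd, Sb.ev_eq_zero p3 hz'.rc]; simp)
      obtain ⟨b, -, hb⟩ := (hu 0 rfl).spec hC hF hD (Nat.add_zero _) ho hc hB hBU hφ' hz hz'
      have h1 := congrArg (aug k) hb
      rw [aug_bd, sub_zero, hD.aug, p2, ev_add, ev_smul, ← ev_bd, Sb.ev_eq_zero p1 hz'.rc, add_zero,
        smul_eq_mul] at h1
      have ht : t = 0 := (mul_eq_zero.1 h1.symm).resolve_right h0
      exact ⟨ψ, ⟨_, hB, hBU, p1⟩, by rw [p2, ht]; simp⟩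
    · obtain ⟨ψ, p1, p2⟩ := l1 i hi R hR0.le φ hc hφ'
      exact ⟨ψ, ⟨_, hB, hBU, p1⟩, p2⟩

end Pd

theorem pdS_of (hS : SmVanS) (hC : SmChS) (hF : FundS) (hE : CellS) (hL : LocS) (hU : UctS)
    (hI : OpenIndS) : PdS := fun _ _ d X _ _ _ O hO D hD =>
  hI (d + 1) X (Pd.P O D) Pd.empty (Pd.cell hC hF hD hE hL hU hO)
    (fun _ _ a b c d e => ⟨fun _ _ h => Pd.union_S hC hF hD a b c d e h,
      Pd.union_I hS hC hF hD a b c d e⟩) fun _ a b c => Pd.dir a b c

end Crest.Agent.N255.Tp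

end
end

-- ▼ part N255/Tp/All

/-!
# Row 255, block D (helper72): the closed forms of the duality statements
-/

set_option autoImplicit false

namespace Crest.Agent.N255.Tp

theorem pdS_holds : PdS :=
  pdS_of smVanS_holds smChS_holds fundS_holds cellS_holds locS_holds uctS_holds openIndS_holds

theorem detS_holds : DetS := detS_of pdS_holds capS_holds

theorem vanS_holds : VanS := vanS_of smVanS_holds locS_holds

theorem ndS_holds : NdS := ndS_of smVanS_holds locS_holds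

end Crest.Agent.N255.Tp
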