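import Crest.Agent.N255.Tp.All
import Crest.Agent.N255.Tp.Du
import Crest.Agent.N255.Tp.Sm
import Crest.Agent.N255.Tp.Cell
import Crest.Agent.N255.Wi.All
import Crest.Agent.N255.Gs.Wc

-- ▼ part N255/Tp/CapD
section

/-!
# Row 255, block D (helper83): cap cycles detect the cycles of a window

`Dl O D U ψ c`: `ψ` has compact support in `X`, its coboundary has compact support in `U` and is dual to
`c`.  `Dl.cut`: `c` is homologous to the caps of `ψ` with the cuts of a fundamental chain.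
-/

set_option autoImplicit false
open Set Filter Topology

noncomputable section

namespace Crest.Agent.N255.Tp

variable {X : Type} [TopologicalSpace X] {k : Type} [Field k] {d : ℕ} {U V K K' : Set X}

/-- `ψ` is a compactly supported primitive of the dual of `c` in `U` -/
structure Ori.Dl (O : Ori k d X) (D : ∀ {n : ℕ} (j : ℕ) {i : ℕ}, Co k i X → Ch k n X →ₗ[k] Ch k j X)
    (U : Set X) {i j : ℕ} (ψ : Co k i X) (c : Ch k j X) : Prop where
  cc : ψ ∈ Cc k univ k i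
  du : O.Du D U (cob k ψ) c

variable {O : Ori k d X} {D : ∀ {n : ℕ} (j : ℕ) {i : ℕ}, Co k i X → Ch k n X →ₗ[k] Ch k j X}
  {i j : ℕ}

namespace Ori.Dl

variable {ψ ψ' : Co k i X} {c c' : Ch k j X}

theorem mono (h : O.Dl D U ψ c) (hUV : U ⊆ V) : O.Dl D V ψ c := ⟨h.cc, h.du.mono hUV⟩

theorem congr (h : O.Dl D U ψ c) (e : c - c' ∈ (On U).B k j) : O.Dl D U ψ c' := ⟨h.cc, h.du.congr e⟩

theorem zero : O.Dl D U (0 : Co k i X) (0 : Ch k j X) :=
  ⟨Submodule.zero_mem _, by rw [map_zero]; exact du_zero⟩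

theorem smul (hD : CapLike k X D) (h : O.Dl D U ψ c) (r : k) : O.Dl D U (r • ψ) (r • c) :=
  ⟨Submodule.smul_mem _ r h.cc, by rw [map_smul]; exact h.du.smul hD r⟩

theorem cob_mem (h : O.Dl D U ψ c) : cob k ψ ∈ Cc k U k (i + 1) := h.du.mem_Cc

variable [T2Space X] (hD : CapLike k X D) (hU : IsOpen U) (hij : i + j = d)
include hD hU hij

theorem add (h : O.Dl D U ψ c) (h' : O.Dl D U ψ' c') : O.Dl D U (ψ + ψ') (c + c') :=
  ⟨Submodule.add_mem _ h.cc h'.cc, by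
    rw [map_add]
    exact h.du.add smChS_holds fundS_holds hD (by omega) hU h'.du (cob_cob _) (cob_cob _)⟩

theorem sub (h : O.Dl D U ψ c) (h' : O.Dl D U ψ' c') : O.Dl D U (ψ - ψ') (c - c') := by
  simpa [sub_eq_add_neg] using h.add hD hU hij (h'.smul hD (-1))

theorem sum {ι : Type} (s : Finset ι) {f : ι → Co k i X} {g : ι → Ch k j X}
    (h : ∀ a ∈ s, O.Dl D U (f a) (g a)) : O.Dl D U (∑ a ∈ s, f a) (∑ a ∈ s, g a) := by
  classical
  induction s using Finset.induction_on with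
  | empty => simpa using zero
  | insert a s ha ih =>
    rw [Finset.sum_insert ha, Finset.sum_insert ha]
    exact (h a (Finset.mem_insert_self _ _)).add hD hU hij
      (ih fun b hb => h b (Finset.mem_insert_of_mem hb))

omit hU in
/-- **cut formula**: `z = zL + zM + zR` fundamental along a compact set `K'` which carries `ψ`, the outer
parts miss the support `K` of `cob ψ` -/
theorem cut : ∃ u : kˣ, ∀ (U K K' : Set X) (ψ : Co k i X) (c : Ch k j X) (zL zM zR : Ch k (d + 1) X),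
    IsOpen U → O.Dl D U ψ c → IsCompact K → K ⊆ U → IsCompact K' → K ⊆ K' →
    cob k ψ ∈ (On Kᶜ).van k k (i + 1) → ψ ∈ (On K'ᶜ).van k k i → O.Fund K' (zL + zM + zR) →
    zL ∈ (On Kᶜ).ch k (d + 1) → zM ∈ (On U).ch k (d + 1) → zR ∈ (On Kᶜ).ch k (d + 1) →
    c - (u : k) • (D j ψ (bd k zL) + D j ψ (bd k zR)) ∈ (On U).B k j := by
  obtain ⟨s, t, e⟩ := hD.bd hij
  refine ⟨t⁻¹ * s, fun U K K' ψ c zL zM zR hU h hK hKU hK' hKK h1 h2 hf hL hM hR => ?_⟩
  have fM : O.Fund K zM := (hf.mono hK hK' hKK).of_sub (by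
    rw [show zL + zM + zR - zM = zL + zR by abel]; exact Submodule.add_mem _ hL hR)
  have a1 := h.du.spec smChS_holds fundS_holds hD (by omega) hU (cob_cob _) hK hKU h1 hM fM
  have a2 := hD.zero (j := j) _ ψ _ h2 hf.rc
  rw [map_add, map_add, map_add, map_add] at a2
  have a3 : D j ψ (bd k zL) + D j ψ (bd k zR) = -D j ψ (bd k zM) := by
    rw [eq_neg_iff_add_eq_zero, ← a2]; abel
  have a4 := Submodule.smul_mem _ ((t⁻¹ : kˣ) : k) (Sb.bd_mem_B (hD.mem (j := j + 1) U ψ zM hM))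
  rw [e, smul_add, smul_smul, smul_smul, Units.inv_mul, one_smul] at a4
  have := Submodule.sub_mem _ a4 a1
  rw [a3, smul_neg, sub_neg_eq_add, Units.val_mul]
  convert this using 1
  abel

end Ori.Dl



variable [T2Space X] [ChartedSpace (EE (d + 1)) X] (hO : O.ND) (hD : CapLike k X D) (hU : IsOpen U)
include hO hD hU

/-- every cycle of `U` which bounds in `X` has a primitive -/
theorem exists_dl (hij : i + j = d) {c : Ch k j X} (hc : c ∈ (On U).ch k j)
    (hb : c ∈ (On univ).B k j) : ∃ ψ : Co k i X, O.Dl D U ψ c := by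
  obtain ⟨φ, h1, h2, h3⟩ := (pdS_holds k d X O hO D hD U hU).1 (i + 1) j (by omega) c hc
    (Sb.B_le_cyc hb)
  obtain ⟨ψ, a, b⟩ := (pdS_holds k d X O hO D hD univ isOpen_univ).2 i φ
    (Cc_mono (subset_univ _) h1) h2 fun j' hj => by
      obtain rfl : j' = j := by omega
      exact (h3.mono (subset_univ _)).congr (by simpa using hb)
  exact ⟨ψ, a, b ▸ h3⟩

/-- the primitive of a boundary of `U` is closed up to a cochain with compact support in `U` -/
theorem Ori.Dl.of_B (hij : i + j = d) {ψ : Co k i X} {c : Ch k j X} (h : O.Dl D U ψ c)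
    (hb : c ∈ (On U).B k j) : ∃ θ ∈ Cc k U k i, cob k (ψ - θ) = 0 := by
  obtain ⟨θ, a, b⟩ := (pdS_holds k d X O hO D hD U hU).2 i _ h.cob_mem (cob_cob _) fun j' hj => by
    obtain rfl : j' = j := by omega
    exact h.du.congr (by simpa using hb)
  exact ⟨θ, a, by rw [map_sub, b, sub_self]⟩

omit hU in
/-- compactly supported cocycles of an acyclic manifold -/
theorem Cc_exact (hij : i + j = d) (hA : cyc k X j ≤ (On univ).B k j) {φ : Co k (i + 1) X}
    (h : φ ∈ Cc k univ k (i + 1)) (hc : cob k φ = 0) : ∃ η ∈ Cc k univ k i, cob k η = φ :=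
  (pdS_holds k d X O hO D hD univ isOpen_univ).2 i φ h hc fun j' hj => by
    obtain rfl : j' = j := by omega
    obtain ⟨c, -, c1, c2⟩ := Ori.du_exists (O := O) fundS_holds hD hj isOpen_univ h hc
    exact c2.congr (by simpa using hA c1)

/-- primitives of homologous cycles are cohomologous off a compact subset of `U` -/
theorem Ori.Dl.uniq (hij : i + 1 + j = d) (hA : cyc k X (j + 1) ≤ (On univ).B k (j + 1))
    {ψ : Co k (i + 1) X} {c : Ch k j X} (h : O.Dl D U ψ c) (hb : c ∈ (On U).B k j) :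
    ∃ θ ∈ Cc k U k (i + 1), ∃ η ∈ Cc k univ k i, ψ = θ + cob k η := by
  obtain ⟨θ, a, b⟩ := h.of_B hO hD hU hij hb
  obtain ⟨η, c1, c2⟩ := Cc_exact (O := O) (j := j + 1) hO hD (by omega) hA
    (Submodule.sub_mem _ h.cc (Cc_mono (subset_univ _) a)) b
  exact ⟨θ, a, η, c1, by rw [c2]; abel⟩

omit hO [ChartedSpace (EE (d + 1)) X] in
/-- conversely every compactly supported cochain whose coboundary has compact support in `U` is a
primitive -/
theorem dl_of (hij : i + j = d) {ψ : Co k i X} (h : ψ ∈ Cc k univ k i)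
    (h' : cob k ψ ∈ Cc k U k (i + 1)) :
    ∃ c ∈ (On U).ch k j, c ∈ cyc k X j ∧ O.Dl D U ψ c := by
  obtain ⟨c, a, b, e⟩ := Ori.du_exists (O := O) (j := j) fundS_holds hD (by omega) hU h' (cob_cob _)
  exact ⟨c, a, b, h, e⟩

end Crest.Agent.N255.Tp

end
end

-- ▼ part N255/Tp/Kt
section

/-!
# Row 255, block D (helper83): the K-trick

`Kt 𝒱 𝒲 A`: simplices in `A`, or with vertices in `A`, inside a member of `𝒲`, every edge inside `A` or a
member of `𝒱`.  `Kt L ⊓ Kt R = Kt (L ∩ R)`, `Kt L ⊔ Kt R = Sm {L, R}`, and `H_0, H_1, H^0, H^1` of `Kt N` are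
finitely generated when the finite family `𝒱` covers `N`.
-/

set_option autoImplicit false
open Set Filter Topology

noncomputable section

namespace Crest.Agent.N255.Tp

open Wi (FR)

variable {X : Type} [TopologicalSpace X] {n m : ℕ}

/-- vertices -/
def vx (σ : Sx n X) (t : Fin (n + 1)) : X := σ (stdSimplex.vertex t)

theorem vx_sub (σ : Sx n X) (v : Fin (m + 1) → Fin (n + 1)) (t : Fin (m + 1)) :
    vx (sub σ v) t = vx σ (v t) := congrArg σ (stdSimplex.map_vertex v t)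






/-- the K-trick family -/
def Kt (𝒱 𝒲 : Set (Set X)) (A : Set X) : Sb X where
  S n := {σ | range σ ⊆ A ∨ ((∀ t, vx σ t ∈ A) ∧ (∃ W ∈ 𝒲, range σ ⊆ W) ∧
    ∀ v : Fin 2 → Fin (n + 1), range (sub σ v) ⊆ A ∨ ∃ V ∈ 𝒱, range (sub σ v) ⊆ V)}
  fc_mem n σ i h := h.imp (range_fc σ i).trans fun ⟨a, ⟨W, hW, b⟩, c⟩ =>
    ⟨fun t => by rw [fc, vx_sub]; exact a _, ⟨W, hW, (range_fc σ i).trans b⟩,
      fun v => by rw [fc, sub_sub]; exact c _⟩

variable {𝒱 𝒲 : Set (Set X)} {A L R N : Set X}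









section abs

variable {k : Type} [Field k]


end abs

/-- edges and triangles with prescribed boundary exist in `W` -/
structure Fil (W : Set X) : Prop where
  edge : ∀ x ∈ W, ∀ y ∈ W, ∃ e : Sx 1 X, range e ⊆ W ∧ vx e 0 = x ∧ vx e 1 = y
  tri : ∀ a b c : Sx 1 X, range a ⊆ W → range b ⊆ W → range c ⊆ W → vx b 0 = vx c 0 →
    vx c 1 = vx a 0 → vx b 1 = vx a 1 →
    ∃ σ : Sx 2 X, range σ ⊆ W ∧ fc σ 0 = a ∧ fc σ 1 = b ∧ fc σ 2 = c





/-- admissible pairs of families for the K-trick -/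
structure KF (𝒱 𝒲 : Set (Set X)) : Prop where
  fin : 𝒱.Finite
  op : ∀ V ∈ 𝒱, IsOpen V
  fil : ∀ V ∈ 𝒱, Fil V
  star : ∀ V ∈ 𝒱, ∀ V' ∈ 𝒱, (V ∩ V').Nonempty → ∃ W ∈ 𝒲, V ∪ V' ⊆ W ∧ Fil W


/-- edges in `V` with vertices in `N` -/
def Ed (N V : Set X) : Set (Sx 1 X) := {e | range e ⊆ V ∧ ∀ t, vx e t ∈ N}


namespace KF

variable (h : KF 𝒱 𝒲) {k : Type} [Field k]
include h







end KF

end Crest.Agent.N255.Tp

end
end

-- ▼ part N255/Tp/KtR
section

/-!
# Row 255, block D (helper83): the K-trick relative to a far set, Mayer–Vietoris for families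
-/

set_option autoImplicit false
open Set Filter Topology

noncomputable section

namespace Crest.Agent.N255.Tp

open Wi (FR)

variable {X : Type} [TopologicalSpace X] {n : ℕ} {k : Type} [Field k]


namespace KF

variable {𝒱 𝒲 : Set (Set X)} {N Fa : Set X} (h : KF 𝒱 𝒲) (hF : IsOpen Fa) (hN : N ⊆ ⋃₀ 𝒱 ∪ Fa)
include h hF hN




end KF

section mv

variable {k : Type} [CommRing k] {A : Type} [AddCommGroup A] [Module k A] {P Q F : Sb X}



/-- gluing of two cochains which agree on the intersection -/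
theorem mv_glue {a b : Co A n X} (h : a - b ∈ (P.inf Q).van k A n) :
    ∃ c : Co A n X, c - a ∈ P.van k A n ∧ c - b ∈ Q.van k A n ∧
      ∀ F : Sb X, a ∈ F.van k A n → b ∈ F.van k A n → c ∈ F.van k A n := by
  refine ⟨b + P.res (a - b), ?_, by simpa using Sb.res_mem h, fun F ha hb σ hσ => ?_⟩
  · have := Submodule.neg_mem _ (P.sub_res (k := k) (a - b))
    rwa [show -(a - b - P.res (a - b)) = b + P.res (a - b) - a by abel] at this
  · by_cases hP : σ ∈ P.S n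
    · simp [Sb.res_of_mem _ hP, ha σ hσ]
    · simp [Sb.res_of_notMem _ hP, hb σ hσ]

end mv

end Crest.Agent.N255.Tp

end
end

-- ▼ part N255/Tp/Phi

/-!
# Row 255, block D (helper83): cochains with compact support in `X`, restricted to open sets

`ZP k U A i` cocycles on `U`, `BP k U A i` coboundaries on `U`, both with compact support in `X`.
Mayer–Vietoris is exact as soon as `H_c(X) = 0` in the relevant degrees (`Hc0`).
-/

set_option autoImplicit false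
open Set Filter Topology

noncomputable section

namespace Crest.Agent.N255.Tp

open Wi (FR)

variable {X : Type} [TopologicalSpace X] {n i : ℕ} {U V L R : Set X}

section ring

variable (k : Type) [CommRing k] {A : Type} [AddCommGroup A] [Module k A]

/-- extension from small simplices -/
def exs (𝒰 : Set (Set X)) (θ : Co A n X) : Co A n X := fun σ => ev k θ (Sml.rho k 𝒰 n (sg k σ))

variable {k} {𝒰 : Set (Set X)} {θ : Co A n X}

theorem ev_exs (c : Ch k n X) : ev k (exs k 𝒰 θ) c = ev k θ (Sml.rho k 𝒰 n c) :=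
  (map_eq_ev ((ev k θ).comp (Sml.rho k 𝒰 n)) c).symm

theorem cob_exs : cob k (exs k 𝒰 θ) = exs k 𝒰 (cob k θ) := funext fun σ => by
  rw [← ev_sg (k := k) (cob k _), ← ev_bd, ev_exs, ← Sml.bd_rho, ev_bd]; rfl

theorem exs_sub : exs k 𝒰 θ - θ ∈ (Sm 𝒰).van k A n := fun σ hσ => by
  rw [Pi.sub_apply, exs, Sml.rho_of_sm k 𝒰 (Sb.sg_mem hσ), ev_sg, sub_self]

theorem exs_van {T : Set X} (h : θ ∈ (On T).van k A n) : exs k 𝒰 θ ∈ (On T).van k A n :=
  fun _ hσ => Sb.ev_eq_zero h (Sml.rho_mem k 𝒰 T (Sb.sg_mem hσ))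

theorem exs_Cc (h : θ ∈ Cc k U A n) : exs k 𝒰 θ ∈ Cc k U A n :=
  let ⟨K, a, b, c⟩ := h; ⟨K, a, b, exs_van c⟩

theorem exs_van_of_sm (hU : ∀ U ∈ 𝒰, IsOpen U) {W : Set X} (hW : W ⊆ ⋃₀ 𝒰)
    (h : θ ∈ ((On W).inf (Sm 𝒰)).van k A n) : exs k 𝒰 θ ∈ (On W).van k A n :=
  fun _ hσ => Sb.ev_eq_zero h (Sml.rho_inf k hU hW (Sb.sg_mem hσ))

theorem exs_Z (hU : ∀ U ∈ 𝒰, IsOpen U) {W : Set X} (hW : W ⊆ ⋃₀ 𝒰)
    (h : θ ∈ ((On W).inf (Sm 𝒰)).Z k A n) : exs k 𝒰 θ ∈ (On W).Z k A n := by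
  rw [Sb.mem_Z, cob_exs]; exact exs_van_of_sm hU hW h

variable (k)

/-- cocycles on `U` with compact support in `X` -/
def ZP (U : Set X) (A : Type) [AddCommGroup A] [Module k A] (n : ℕ) : Submodule k (Co A n X) :=
  Cc k univ A n ⊓ (On U).Z k A n

/-- coboundaries on `U` of cochains with compact support in `X` -/
def BP (U : Set X) (A : Type) [AddCommGroup A] [Module k A] : ∀ n, Submodule k (Co A n X)
  | 0 => (On U).van k A 0
  | n + 1 => (Cc k univ A n).map (cob k) ⊔ (On U).van k A (n + 1)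

/-- vanishing of `H_c^n (X; A)` -/
def Hc0 (X : Type) [TopologicalSpace X] (A : Type) [AddCommGroup A] [Module k A] (n : ℕ) : Prop :=
  ZP k (univ : Set X) A n ≤ BP k univ A n

variable {k}

theorem mem_BP {φ : Co A (n + 1) X} :
    φ ∈ BP k U A (n + 1) ↔ ∃ η ∈ Cc k univ A n, φ - cob k η ∈ (On U).van k A (n + 1) :=
  ⟨fun h => by
    obtain ⟨_, ⟨η, a, rfl⟩, b, hb, rfl⟩ := Submodule.mem_sup.1 h
    exact ⟨η, a, by simpa using hb⟩,
  fun ⟨η, a, b⟩ => Submodule.mem_sup.2 ⟨_, ⟨η, a, rfl⟩, _, b, by abel⟩⟩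

theorem ZP_mono (h : U ⊆ V) : ZP k V A n ≤ ZP k U A n := inf_le_inf_left _ (Sb.Z_mono (On_le h))

theorem BP_mono (h : U ⊆ V) : ∀ {n}, BP k V A n ≤ BP k U A n
  | 0 => van_mono h
  | _ + 1 => sup_le_sup_left (van_mono h) _

theorem van_le_BP : ∀ {n}, (On U).van k A n ≤ BP k U A n
  | 0 => le_rfl
  | _ + 1 => le_sup_right

theorem cob_mem_BP {η : Co A n X} (h : η ∈ Cc k univ A n) : cob k η ∈ BP k U A (n + 1) :=
  Submodule.mem_sup_left ⟨η, h, rfl⟩

theorem BP_le_Z : ∀ {n}, BP k U A n ≤ (On U).Z k A n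
  | 0 => Sb.van_le_Z
  | _ + 1 => sup_le (by
      rintro _ ⟨η, -, rfl⟩
      rw [Sb.mem_Z, cob_cob]; exact Submodule.zero_mem _) Sb.van_le_Z

theorem BP_le_Ex : ∀ {n}, BP k U A n ≤ (On U).Ex k A n
  | 0 => le_rfl
  | _ + 1 => sup_le_sup_right (LinearMap.map_le_range) _

theorem Hc0.exists (h : Hc0 k X A (n + 1)) {φ : Co A (n + 1) X} (h1 : φ ∈ Cc k univ A (n + 1))
    (h2 : cob k φ = 0) : ∃ η ∈ Cc k univ A n, cob k η = φ := by
  obtain ⟨η, a, b⟩ := mem_BP.1 (h ⟨h1, Sb.mem_Z.2 (h2 ▸ Submodule.zero_mem _)⟩)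
  exact ⟨η, a, (sub_eq_zero.1 (eq_zero_of_van_univ b)).symm⟩

theorem hc0_of (h : ∀ φ ∈ Cc k (univ : Set X) A (n + 1), cob k φ = 0 →
    ∃ η ∈ Cc k univ A n, cob k η = φ) : Hc0 k X A (n + 1) := fun φ hφ => by
  obtain ⟨η, a, rfl⟩ := h φ hφ.1 (eq_zero_of_van_univ (Sb.mem_Z.1 hφ.2))
  exact cob_mem_BP a

theorem res_Cc (P : Sb X) {φ : Co A n X} (h : φ ∈ Cc k U A n) : P.res φ ∈ Cc k U A n :=
  let ⟨K, a, b, c⟩ := h; ⟨K, a, b, Sb.res_mem (Sb.van_mono Sb.inf_le_right c)⟩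

/-- supports bounded away from the far set are compact supports on a window -/
theorem res_Cc_of_far {Fa K : Set X} (hK : IsCompact K) (hV : V ⊆ K ∪ Fa) {φ : Co A n X}
    (h : φ ∈ (On (V ∩ Fa)).van k A n) : (On V).res φ ∈ Cc k univ A n :=
  ⟨K, hK, subset_univ _, Sb.res_mem fun σ hσ => h σ (subset_inter hσ.1 fun _ hx =>
    (hV (hσ.1 hx)).resolve_left (hσ.2 hx))⟩

variable (hL : IsOpen L) (hR : IsOpen R)
include hL hR

/-- gluing of cocycles -/
theorem mv_mid {a b : Co A n X} (ha : a ∈ ZP k L A n) (hb : b ∈ ZP k R A n)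
    (h : a - b ∈ (On (L ∩ R)).van k A n) :
    ∃ c ∈ ZP k (L ∪ R) A n, c - a ∈ (On L).van k A n ∧ c - b ∈ (On R).van k A n := by
  rw [On_inter] at h
  obtain ⟨c, c1, c2, c3⟩ := mv_glue h
  obtain ⟨K, k1, -, k2⟩ := ha.1
  obtain ⟨K', k3, -, k4⟩ := hb.1
  have e := exs_sub (k := k) (𝒰 := {L, R}) (θ := c)
  rw [Sm_pair, Sb.van_sup] at e
  refine ⟨exs k {L, R} c, ⟨exs_Cc ⟨K ∪ K', k1.union k3, subset_univ _,
    c3 _ (van_supp subset_union_left k2) (van_supp subset_union_right k4)⟩,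
    exs_Z (open_pair hL hR) (by simp) (Sb.Z_mono Sb.inf_le_right ?_)⟩,
    by simpa using Submodule.add_mem _ e.1 c1, by simpa using Submodule.add_mem _ e.2 c2⟩
  rw [Sm_pair, Sb.mem_Z, Sb.van_sup]
  exact ⟨by simpa using Submodule.add_mem _ (Sb.cob_mem c1) ha.2,
    by simpa using Submodule.add_mem _ (Sb.cob_mem c2) hb.2⟩

theorem mv_mid' {a b : Co A n X} (ha : a ∈ ZP k L A n) (hb : b ∈ ZP k R A n)
    (h : a - b ∈ BP k (L ∩ R) A n) :
    ∃ c ∈ ZP k (L ∪ R) A n, c - a ∈ BP k L A n ∧ c - b ∈ (On R).van k A n := by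
  cases n with
  | zero => exact mv_mid hL hR ha hb h
  | succ n =>
    obtain ⟨e, e1, e2⟩ := mem_BP.1 h
    obtain ⟨c, c1, c2, c3⟩ := mv_mid hL hR (a := a - cob k e) (Submodule.sub_mem _ ha
      ⟨cob_mem_Cc e1, BP_le_Z (cob_mem_BP e1)⟩) hb (by rwa [sub_right_comm])
    refine ⟨c, c1, ?_, c3⟩
    have := Submodule.sub_mem _ (van_le_BP c2) (cob_mem_BP (U := L) e1)
    rwa [show c - (a - cob k e) - cob k e = c - a by abel] at this

/-- the connecting cocycle -/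
theorem mv_delta {φ : Co A n X} (h : φ ∈ ZP k (L ∩ R) A n) :
    ∃ θ ∈ ZP k (L ∪ R) A (n + 1), θ - cob k φ ∈ (On L).van k A (n + 1) ∧
      θ ∈ (On R).van k A (n + 1) := by
  obtain ⟨c, c1, c2, c3⟩ := mv_mid hL hR (a := cob k φ) (b := 0)
    ⟨cob_mem_Cc h.1, BP_le_Z (cob_mem_BP h.1)⟩ (Submodule.zero_mem _)
    (by rw [sub_zero]; exact h.2)
  exact ⟨c, c1, c2, by simpa using c3⟩

/-- exactness at `L ∩ R` -/
theorem mv_split' (hc : ZP k (L ∪ R) A (n + 1) ⊓ BP k L A (n + 1) ⊓ BP k R A (n + 1) ≤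
    BP k (L ∪ R) A (n + 1)) {φ : Co A n X} (h : φ ∈ ZP k (L ∩ R) A n) :
    ∃ b ∈ ZP k R A n, φ - b ∈ ZP k L A n := by
  obtain ⟨θ, a, b, c⟩ := mv_delta hL hR h
  obtain ⟨η, e1, e2⟩ := mem_BP.1 (hc ⟨⟨a, by
    simpa using Submodule.add_mem _ (van_le_BP b) (cob_mem_BP (U := L) h.1)⟩, van_le_BP c⟩)
  refine ⟨η, ⟨e1, ?_⟩, Submodule.sub_mem _ h.1 e1, ?_⟩
  · exact Sb.mem_Z.2 (by simpa using Submodule.sub_mem _ c (van_mono subset_union_right e2))
  · have := Submodule.sub_mem _ (van_mono subset_union_left e2) b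
    rwa [sub_sub_sub_cancel_left, ← map_sub] at this


/-- **Mayer–Vietoris, onto** -/
theorem mv_surj (hu : L ∪ R = univ) (hc : Hc0 k X A (n + 1)) {φ : Co A n X}
    (h : φ ∈ ZP k (L ∩ R) A n) : ∃ b ∈ ZP k R A n, φ - b ∈ ZP k L A n :=
  mv_split' hL hR (by rw [hu]; exact (inf_le_left.trans inf_le_left).trans hc) h

/-- **Mayer–Vietoris, direct sum** -/
theorem mv_inj (hu : L ∪ R = univ) (hc : Hc0 k X A n) {a b : Co A n X} (ha : a ∈ ZP k L A n)
    (hb : b ∈ ZP k R A n) (h : a - b ∈ BP k (L ∩ R) A n) : a ∈ BP k L A n ∧ b ∈ BP k R A n := by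
  obtain ⟨c, c1, c2, c3⟩ := mv_mid' hL hR ha hb h
  rw [hu] at c1
  exact ⟨by simpa using Submodule.sub_mem _ (BP_mono (subset_univ L) (hc c1)) c2,
    by simpa using Submodule.sub_mem _ (BP_mono (subset_univ R) (hc c1)) (van_le_BP c3)⟩

omit hL hR

section star

variable {ι : Type} {I : ι → Set X} (ho : ∀ e, IsOpen (I e))
  (hI : ∀ e e', e ≠ e' → I e ∪ I e' = univ)

include ho hI



end star

end ring

variable {k : Type} [Field k]

/-- finite dimensional coefficients -/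
theorem Hc0.fin {A : Type} [AddCommGroup A] [Module k A] [Module.Finite k A] (h : Hc0 k X k n) :
    Hc0 k X A n := by
  intro φ ⟨⟨K, k1, k2, k3⟩, hz⟩
  let b := Module.finBasis k A
  have h1 : ∀ j, (fun σ => b.coord j (φ σ) : Co k n X) ∈ BP k univ k n := fun j =>
    h ⟨⟨K, k1, k2, fun σ hσ => by simp [k3 σ hσ]⟩, fun σ hσ => by
      rw [cob_map, hz σ hσ, map_zero]⟩
  have h2 : φ = ∑ j, (fun σ => b.coord j (φ σ) • b j : Co A n X) := funext fun σ => by
    rw [Finset.sum_apply]; exact (b.sum_repr (φ σ)).symm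
  rw [h2]
  refine Submodule.sum_mem _ fun j _ => ?_
  cases n with
  | zero => exact fun σ hσ => by simp only [h1 j σ hσ, zero_smul]
  | succ n =>
    obtain ⟨η, ⟨L, l1, l2, l3⟩, e⟩ := mem_BP.1 (h1 j)
    refine mem_BP.2 ⟨fun σ => LinearMap.toSpanSingleton k A (b j) (η σ),
      ⟨L, l1, l2, fun σ hσ => by simp [l3 σ hσ]⟩, fun σ hσ => ?_⟩
    have := e σ hσ
    rw [Pi.sub_apply, sub_eq_zero] at this ⊢
    rw [cob_map, ← this]; rfl

variable {d j : ℕ} {O : Ori k d X}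
  {D : ∀ {n : ℕ} (j : ℕ) {i : ℕ}, Co k i X → Ch k n X →ₗ[k] Ch k j X} [T2Space X]

/-- a cocycle on `L` is, on `L`, the primitive of a cycle of any open neighbourhood of `Lᶜ` -/
theorem exists_dl' (hD : CapLike k X D) (hL : IsOpen L) (hU : IsOpen U) (hLU : Lᶜ ⊆ U)
    (hij : i + j = d) {ψ : Co k i X} (h : ψ ∈ ZP k L k i) : ∃ (ψ' : Co k i X) (c : Ch k j X),
      ψ - ψ' ∈ (On L).van k k i ∧ c ∈ (On U).ch k j ∧ c ∈ cyc k X j ∧ O.Dl D U ψ' c := by
  obtain ⟨⟨K, k1, -, k2⟩, hz⟩ := h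
  obtain ⟨η, a, b, e⟩ := inter_supp smVanS_holds k1.isClosed hL.isClosed_compl (cob_cob ψ)
    (Sb.cob_mem k2) (by rwa [compl_compl])
  rw [compl_compl] at b
  obtain ⟨c, c1, c2, c3⟩ := dl_of (O := O) hD hU hij (ψ := ψ - η)
    ⟨K, k1, subset_univ _, Submodule.sub_mem _ k2 a⟩
    ⟨K ∩ Lᶜ, k1.inter_right hL.isClosed_compl, inter_subset_right.trans hLU, by rwa [map_sub]⟩
  exact ⟨_, c, by simpa using b, c1, c2, c3⟩


variable [ChartedSpace (EE (d + 1)) X] (hO : O.ND) (hD : CapLike k X D)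
include hO hD


/-- finite rank of `H^{i+1}_Φ (L') → H^{i+1}_Φ (L)` from finite rank of `H_j (U) → H_j (V)` -/
theorem fr_phi {L' : Set X} (hL : IsOpen L') (hU : IsOpen U) (hV : IsOpen V) (hLU : L'ᶜ ⊆ U)
    (hUV : U ⊆ V) (hLL : L ⊆ L') (hLV : Disjoint L V) (hij : i + 1 + j = d)
    (hA : cyc k X j ≤ (On univ).B k j) (hA' : cyc k X (j + 1) ≤ (On univ).B k (j + 1))
    (h : FR ((On U).ch k j ⊓ cyc k X j) ((On V).B k j)) :
    FR (ZP k L' k (i + 1)) (BP k L k (i + 1)) := by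
  classical
  obtain ⟨s, hs, hs'⟩ := h.finset
  have h1 : ∀ c : s, ∃ ψ : Co k (i + 1) X, O.Dl D U ψ c.1 := fun c =>
    exists_dl hO hD hU hij (hs c c.2).1 (hA (hs c c.2).2)
  choose f hf using h1
  refine ⟨Submodule.span k (range f), Submodule.fg_span (finite_range f), fun ψ hψ => ?_⟩
  obtain ⟨ψ', c, a1, a2, a3, a4⟩ := exists_dl' (O := O) hD hL hU hLU hij hψ
  obtain ⟨g, hg, b, hb, rfl⟩ := Submodule.mem_sup.1 (hs' ⟨a2, a3⟩)
  obtain ⟨r, rfl⟩ := (Submodule.mem_span_finset' ).1 hg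
  have d1 : O.Dl D U (∑ c : s, r c • f c) (∑ c : s, r c • c.1) :=
    Ori.Dl.sum hD hU hij _ fun c _ => (hf c).smul hD _
  obtain ⟨θ, ⟨K, -, t1, t2⟩, η, e1, e2⟩ := ((a4.sub hD hU hij d1).mono hUV).uniq hO hD hV hij hA'
    (by simpa using hb)
  have : ψ = ∑ c : s, r c • f c + (cob k η + (θ + (ψ - ψ'))) := by
    rw [← add_assoc (cob k η), add_comm (cob k η), ← e2]; abel
  rw [this]
  exact Submodule.add_mem_sup
    (Submodule.sum_mem _ fun c _ => Submodule.smul_mem _ _ (Submodule.subset_span ⟨c, rfl⟩))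
    (Submodule.add_mem _ (cob_mem_BP e1) (van_le_BP (Submodule.add_mem _
      (van_mono (fun x hx hK => disjoint_left.1 hLV hx (t1 hK)) t2) (van_mono hLL a1))))

end Crest.Agent.N255.Tp

end
namespace Crest.Agent.N255.Tp.Ori.Dl
end Crest.Agent.N255.Tp.Ori.Dl
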